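import Vale.Agent.Lib.PCP.Rep.Gen

/-!
Parallel repetition for arbitrary weighted projection games: the main step, and products of
finitely many games.
-/

namespace Vale.Agent.Lib.PCP.Rep

open Finset
open scoped BigOperators

namespace WG

variable {U D V A B U' D' V' A' B' : Type}

theorem WF.prod [Fintype U] [Fintype D] [Fintype U'] [Fintype D'] {G : WG U D V A B}
    {H : WG U' D' V' A' B'} (hG : G.WF) (hH : H.WF) : (G.prod H).WF where
  ν0 u := mul_nonneg (hG.ν0 _) (hH.ν0 _)
  ν1 := by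
    simp only [WG.prod, Fintype.sum_prod_type, ← Finset.sum_mul_sum]
    exact mul_le_one₀ hG.ν1 (Finset.sum_nonneg fun u _ => hH.ν0 u) hH.ν1
  p0 u i := mul_nonneg (hG.p0 _ _) (hH.p0 _ _)
  p1 u := by
    simp only [WG.prod, Fintype.sum_prod_type, ← Finset.sum_mul_sum]
    exact mul_le_one₀ (hG.p1 _) (Finset.sum_nonneg fun i _ => hH.p0 _ i) (hH.p1 _)

/-- The main step of parallel repetition. -/
theorem coll_prod_le [Fintype U] [Fintype D] [Fintype V] [Fintype A] [Fintype B] [DecidableEq B]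
    [Fintype U'] [Fintype D'] [Fintype B'] [DecidableEq B'] [Nonempty A] [Nonempty B]
    {G : WG U D V A B} {H : WG U' D' V' A' B'} (hG : G.WF) (hH : H.WF) {ε κ : ℝ} (hε : 0 ≤ ε)
    (hκ : 0 < κ) (hs : ∀ g f, G.val g f ≤ 1 - ε) (hc : ∀ f, H.coll f ≤ κ)
    (f : V × V' → A × A') : (G.prod H).coll f ≤ (1 - ε ^ 2 / 10) * κ := by
  classical
  set h : V → U' × B' → A → ℝ := fun v w a => ∑ i, H.p w.1 i *
    if (f (v, H.nbr w.1 i)).1 = a ∧ H.proj w.1 i (f (v, H.nbr w.1 i)).2 = w.2 then 1 else 0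
    with hh
  set Hs : V → U' × B' → ℝ := fun v w => ∑ a, h v w a with hHs
  have h0 : ∀ v w a, 0 ≤ h v w a := fun v w a => Finset.sum_nonneg fun i _ =>
    mul_nonneg (hH.p0 _ _) (by split_ifs <;> norm_num)
  have Hs0 : ∀ v w, 0 ≤ Hs v w := fun v w => Finset.sum_nonneg fun a _ => h0 v w a
  have Hsκ : ∀ v, ∑ w : U' × B', H.ν w.1 * Hs v w ^ 2 ≤ κ := by
    intro v
    refine le_trans (le_of_eq ?_) (hc fun v' => (f (v, v')).2)
    rw [coll, Fintype.sum_prod_type]
    refine Finset.sum_congr rfl fun u _ => ?_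
    rw [Finset.mul_sum]
    refine Finset.sum_congr rfl fun b _ => ?_
    congr 2
    simp only [hHs, hh]
    rw [Finset.sum_comm]
    refine Finset.sum_congr rfl fun i _ => ?_
    rw [← Finset.mul_sum]
    congr 1
    by_cases e : H.proj u i (f (v, H.nbr u i)).2 = b <;> simp [e]
  set q : V → U' × B' → A → ℝ := fun v w a => h v w a / Hs v w with hq
  have q0 : ∀ v w a, 0 ≤ q v w a := fun v w a => div_nonneg (h0 _ _ _) (Hs0 _ _)
  have q1 : ∀ v w, ∑ a, q v w a ≤ 1 := fun v w => by
    simp only [hq]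
    rw [← Finset.sum_div]
    exact div_self_le_one _
  have hqh : ∀ v w, h v w = fun a => Hs v w * q v w a := by
    intro v w
    funext a
    rcases (Hs0 v w).eq_or_lt with e | e
    · have : h v w a ≤ Hs v w :=
        Finset.single_le_sum (f := fun a => h v w a) (fun a _ => h0 v w a) (Finset.mem_univ a)
      rw [← e, zero_mul]
      exact le_antisymm (by rw [e]; exact this) (h0 _ _ _)
    · simp only [hq]
      rw [mul_div_cancel₀ _ e.ne']
  set α : U × D × D → ℝ := fun i => G.ν i.1 * (G.p i.1 i.2.1 * G.p i.1 i.2.2) with hα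
  have α0 : ∀ i, 0 ≤ α i := fun i =>
    mul_nonneg (hG.ν0 _) (mul_nonneg (hG.p0 _ _) (hG.p0 _ _))
  have α1 : ∑ i, α i ≤ 1 := by
    simp only [hα, Fintype.sum_prod_type, ← Finset.mul_sum, ← Finset.sum_mul]
    refine le_trans (Finset.sum_le_sum fun u _ => ?_) hG.ν1
    exact mul_le_of_le_one_right (hG.ν0 u)
      (mul_le_one₀ (hG.p1 u) (Finset.sum_nonneg fun i _ => hG.p0 u i) (hG.p1 u))
  set a : U × D × D → V := fun i => G.nbr i.1 i.2.1 with ha
  set b : U × D × D → V := fun i => G.nbr i.1 i.2.2 with hb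
  set c : U × D × D → U' × B' → ℝ := fun i w =>
    col (G.proj i.1 i.2.1) (G.proj i.1 i.2.2) (q (a i) w) (q (b i) w) with hcc
  have c0 : ∀ i w, 0 ≤ c i w := fun i w => col_nonneg _ _ (q0 _ _) (q0 _ _)
  have c1 : ∀ i w, c i w ≤ 1 := fun i w => (col_le _ _ (q0 _ _) (q0 _ _)).trans
    (mul_le_one₀ (q1 _ _) (Finset.sum_nonneg fun x _ => q0 _ _ x) (q1 _ _))
  set X : U × D × D → ℝ := fun i => ∑ w : U' × B', H.ν w.1 * (Hs (a i) w * Hs (b i) w * c i w)
    with hX
  -- the collision probability of the product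
  have hQ : (G.prod H).coll f = ∑ i, α i * X i := by
    have e1 : ∀ (u : U) (w : U' × B'), ∑ b0 : B, (∑ i : D × D', G.p u i.1 * H.p w.1 i.2 *
        if (G.proj u i.1 (f (G.nbr u i.1, H.nbr w.1 i.2)).1,
          H.proj w.1 i.2 (f (G.nbr u i.1, H.nbr w.1 i.2)).2) = (b0, w.2) then (1 : ℝ) else 0) ^ 2 =
        ∑ i, ∑ j, G.p u i * G.p u j * (Hs (G.nbr u i) w * Hs (G.nbr u j) w * c (u, i, j) w) := by
      intro u w
      have e2 := sum_sq_eq_col (G.p u) (G.proj u) (fun i => h (G.nbr u i) w)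
      have e3 : ∀ i j, col (G.proj u i) (G.proj u j) (h (G.nbr u i) w) (h (G.nbr u j) w) =
          Hs (G.nbr u i) w * Hs (G.nbr u j) w * c (u, i, j) w := by
        intro i j
        rw [hqh (G.nbr u i) w, hqh (G.nbr u j) w, col_mul]
      simp only [e3] at e2
      rw [← e2]
      refine Finset.sum_congr rfl fun b0 _ => ?_
      congr 1
      rw [Fintype.sum_prod_type]
      refine Finset.sum_congr rfl fun i _ => ?_
      simp only [hh, mul_assoc, ← Finset.mul_sum]
      congr 1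
      have e4 : ∀ x : A, (if G.proj u i x = b0 then ∑ i', H.p w.1 i' *
          if (f (G.nbr u i, H.nbr w.1 i')).1 = x ∧
            H.proj w.1 i' (f (G.nbr u i, H.nbr w.1 i')).2 = w.2 then (1 : ℝ) else 0 else 0) =
          ∑ i', H.p w.1 i' * if (f (G.nbr u i, H.nbr w.1 i')).1 = x then
            (if G.proj u i x = b0 ∧ H.proj w.1 i' (f (G.nbr u i, H.nbr w.1 i')).2 = w.2
              then (1 : ℝ) else 0) else 0 := by
        intro x
        by_cases e : G.proj u i x = b0
        · simp [e, ite_and]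
        · simp [e]
      simp only [e4]
      rw [Finset.sum_comm]
      refine Finset.sum_congr rfl fun i' _ => ?_
      rw [← Finset.mul_sum, Finset.sum_ite_eq]
      simp
    calc (G.prod H).coll f = ∑ u, ∑ w : U' × B', G.ν u * H.ν w.1 * ∑ b0 : B,
          (∑ i : D × D', G.p u i.1 * H.p w.1 i.2 *
          if (G.proj u i.1 (f (G.nbr u i.1, H.nbr w.1 i.2)).1,
            H.proj w.1 i.2 (f (G.nbr u i.1, H.nbr w.1 i.2)).2) = (b0, w.2)
            then (1 : ℝ) else 0) ^ 2 := by
          rw [coll, Fintype.sum_prod_type]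
          refine Finset.sum_congr rfl fun u _ => ?_
          rw [Fintype.sum_prod_type]
          refine Finset.sum_congr rfl fun u' _ => ?_
          rw [Fintype.sum_prod_type, Finset.sum_comm, Finset.mul_sum]
          rfl
      _ = ∑ u, ∑ w : U' × B', ∑ i, ∑ j, α (u, i, j) *
          (H.ν w.1 * (Hs (a (u, i, j)) w * Hs (b (u, i, j)) w * c (u, i, j) w)) := by
          refine Finset.sum_congr rfl fun u _ => Finset.sum_congr rfl fun w _ => ?_
          rw [e1]
          simp only [Finset.mul_sum]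
          refine Finset.sum_congr rfl fun i _ => Finset.sum_congr rfl fun j _ => ?_
          simp only [hα, ha, hb]
          ring
      _ = ∑ i, α i * X i := by
          simp only [hX, Finset.mul_sum]
          rw [Fintype.sum_prod_type]
          refine Finset.sum_congr rfl fun u _ => ?_
          rw [Fintype.sum_prod_type (α₁ := D), Finset.sum_comm]
          exact Finset.sum_congr rfl fun i _ => Finset.sum_comm
  -- the strategy given by correlated sampling
  obtain ⟨φ, hφ⟩ := corr_fun (fun w : U' × B' => H.ν w.1) (fun w => hH.ν0 _)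
    (fun v w => Hs v w ^ 2) (fun v w => sq_nonneg _) a b (fun i w => α i * c i w)
    (fun i w => mul_nonneg (α0 i) (c0 i w))
  have hgain : gain a b (fun i w => α i * c i w) φ ≤ 1 - ε := by
    refine le_trans ?_ (frac_le_val hG hs (fun v x => (φ v).elim 0 fun w => q v w x)
      (fun v x => by cases φ v <;> simp [q0]) (fun v => by cases φ v <;> simp [q1]))
    simp only [gain, Finset.mul_sum, Fintype.sum_prod_type]
    refine Finset.sum_le_sum fun u _ => Finset.sum_le_sum fun i _ =>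
      Finset.sum_le_sum fun j _ => ?_
    have e0 : 0 ≤ G.ν u * (G.p u i * G.p u j * col (G.proj u i) (G.proj u j)
        (fun x => (φ (G.nbr u i)).elim 0 fun w => q (G.nbr u i) w x)
        (fun x => (φ (G.nbr u j)).elim 0 fun w => q (G.nbr u j) w x)) :=
      mul_nonneg (hG.ν0 _) (mul_nonneg (mul_nonneg (hG.p0 _ _) (hG.p0 _ _))
        (col_nonneg _ _ (fun x => by cases φ (G.nbr u i) <;> simp [q0])
          (fun x => by cases φ (G.nbr u j) <;> simp [q0])))
    revert e0
    simp only [ha, hb]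
    cases φ (G.nbr u i) with
    | none => exact fun e0 => e0
    | some w =>
      intro e0
      simp only [Option.elim] at e0 ⊢
      split_ifs with e
      · rw [e]
        simp only [hα, hcc, ha, hb]
        exact le_of_eq (by ring)
      · exact e0
  have hXκ : ∀ i, X i ≤ κ := fun i => by
    have e1 : ∀ w, Hs (a i) w * Hs (b i) w * c i w ≤ (Hs (a i) w ^ 2 + Hs (b i) w ^ 2) / 2 := by
      intro w
      have := mul_le_of_le_one_right (mul_nonneg (Hs0 (a i) w) (Hs0 (b i) w)) (c1 i w)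
      nlinarith [sq_nonneg (Hs (a i) w - Hs (b i) w)]
    calc X i ≤ ∑ w : U' × B', H.ν w.1 * ((Hs (a i) w ^ 2 + Hs (b i) w ^ 2) / 2) :=
          Finset.sum_le_sum fun w _ => mul_le_mul_of_nonneg_left (e1 w) (hH.ν0 _)
      _ = ((∑ w : U' × B', H.ν w.1 * Hs (a i) w ^ 2) +
          ∑ w : U' × B', H.ν w.1 * Hs (b i) w ^ 2) / 2 := by
          rw [← Finset.sum_add_distrib, Finset.sum_div]
          exact Finset.sum_congr rfl fun w _ => by ring
      _ ≤ κ := by linarith [Hsκ (a i), Hsκ (b i)]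
  rcases hε.eq_or_lt with rfl | hε'
  · rw [hQ]
    calc ∑ i, α i * X i ≤ ∑ i, α i * κ :=
          Finset.sum_le_sum fun i _ => mul_le_mul_of_nonneg_left (hXκ i) (α0 i)
      _ = (∑ i, α i) * κ := by rw [Finset.sum_mul]
      _ ≤ _ := by nlinarith
  have ht : 0 < ε / 4 := by linarith
  have hr : ∑ i, α i * (1 - (1 - X i / κ) * (1 + 1 / (ε / 4)) - 2 * (ε / 4)) ≤ 1 - ε := by
    refine le_trans (Finset.sum_le_sum fun i _ => ?_) (hφ.trans hgain)
    have := ratio_bound (fun w : U' × B' => H.ν w.1) (Hs (a i)) (Hs (b i)) (c i)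
      (fun w => hH.ν0 _) (Hs0 _) (Hs0 _) (c0 i) (c1 i) hκ ht (Hsκ _) (Hsκ _)
    refine (mul_le_mul_of_nonneg_left this (α0 i)).trans (le_of_eq ?_)
    rw [← mul_div_assoc, Finset.mul_sum]
    congr 1
    exact Finset.sum_congr rfl fun w _ => by ring
  have e5 : ∑ i, α i * (1 - (1 - X i / κ) * (1 + 1 / (ε / 4)) - 2 * (ε / 4)) =
      (∑ i, α i * X i) / κ * (1 + 4 / ε) - (∑ i, α i) * (4 / ε + ε / 2) := by
    rw [Finset.sum_div, Finset.sum_mul, Finset.sum_mul, ← Finset.sum_sub_distrib]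
    refine Finset.sum_congr rfl fun i _ => ?_
    field_simp
    ring
  rw [e5, ← hQ] at hr
  set Q := (G.prod H).coll f
  have e6 : Q / κ * (1 + 4 / ε) ≤ 1 - ε / 2 + 4 / ε := by
    have : (∑ i, α i) * (4 / ε + ε / 2) ≤ 4 / ε + ε / 2 :=
      mul_le_of_le_one_left (by positivity) α1
    linarith
  have e7 : Q / κ * (ε + 4) ≤ ε + 4 - ε ^ 2 / 2 := by
    have := mul_le_mul_of_nonneg_right e6 hε
    have e8 : Q / κ * (1 + 4 / ε) * ε = Q / κ * (ε + 4) := by field_simp
    have e9 : (1 - ε / 2 + 4 / ε) * ε = ε + 4 - ε ^ 2 / 2 := by field_simp; ring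
    rwa [e8, e9] at this
  have hε1 : ε ≤ 1 := by
    have := gain_nonneg a b (c := fun i w => α i * c i w)
      (fun i w => mul_nonneg (α0 i) (c0 i w)) φ
    linarith
  rw [← div_le_iff₀ hκ]
  by_contra hcon
  push Not at hcon
  have := mul_lt_mul_of_pos_right hcon (show 0 < ε + 4 by linarith)
  nlinarith [sq_nonneg ε, mul_le_mul_of_nonneg_left hε1 (sq_nonneg ε)]

/-- The product of a family of games. -/
def pi {ι : Type} [Fintype ι] (G : ι → WG U D V A B) :
    WG (ι → U) (ι → D) (ι → V) (ι → A) (ι → B) where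
  ν u := ∏ t, (G t).ν (u t)
  p u i := ∏ t, (G t).p (u t) (i t)
  nbr u i := fun t => (G t).nbr (u t) (i t)
  proj u i a := fun t => (G t).proj (u t) (i t) (a t)

theorem WF.pi {ι : Type} [Fintype ι] [DecidableEq ι] [Fintype U] [Fintype D]
    {G : ι → WG U D V A B} (hG : ∀ t, (G t).WF) : (WG.pi G).WF where
  ν0 u := Finset.prod_nonneg fun t _ => (hG t).ν0 _
  ν1 := by
    simp only [WG.pi]
    rw [← Fintype.prod_sum (fun t u => (G t).ν u)]
    exact Finset.prod_le_one (fun t _ => Finset.sum_nonneg fun u _ => (hG t).ν0 u)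
      fun t _ => (hG t).ν1
  p0 u i := Finset.prod_nonneg fun t _ => (hG t).p0 _ _
  p1 u := by
    simp only [WG.pi]
    rw [← Fintype.prod_sum (fun t i => (G t).p (u t) i)]
    exact Finset.prod_le_one (fun t _ => Finset.sum_nonneg fun i _ => (hG t).p0 _ i)
      fun t _ => (hG t).p1 _

/-- Transport of the collision probability along an isomorphism of games. -/
theorem coll_congr [Fintype U] [Fintype D] [Fintype B] [DecidableEq B] [Fintype U'] [Fintype D']
    [Fintype B'] [DecidableEq B'] {G : WG U D V A B} {H : WG U' D' V' A' B'} (eU : U ≃ U')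
    (eD : D ≃ D') (eB : B ≃ B') (f : V → A) (f' : V' → A') (h1 : ∀ u, G.ν u = H.ν (eU u))
    (h2 : ∀ u i, G.p u i = H.p (eU u) (eD i))
    (h3 : ∀ u i, eB (G.proj u i (f (G.nbr u i))) =
      H.proj (eU u) (eD i) (f' (H.nbr (eU u) (eD i)))) : G.coll f = H.coll f' := by
  refine Fintype.sum_equiv eU _ _ fun u => ?_
  rw [h1]
  congr 1
  refine Fintype.sum_equiv eB _ _ fun b => ?_
  congr 1
  refine Fintype.sum_equiv eD _ _ fun i => ?_
  rw [h2, ← h3]
  simp

theorem coll_pi_fin [Fintype U] [Fintype D] [Fintype V] [Fintype A] [Fintype B] [DecidableEq B]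
    [Nonempty A] [Nonempty B] (k : ℕ) : ∀ (G : Fin k → WG U D V A B) (ε : Fin k → ℝ),
    (∀ t, (G t).WF) → (∀ t, 0 ≤ ε t) → (∀ t, ε t ≤ 1) → (∀ t g f, (G t).val g f ≤ 1 - ε t) →
    ∀ f, (pi G).coll f ≤ ∏ t, (1 - ε t ^ 2 / 10) := by
  induction k with
  | zero =>
    intro G ε _ _ _ _ f
    simp [coll, pi, Subsingleton.elim _ (default : Fin 0 → B)]
  | succ k ih =>
    intro G ε hG h0 h1 hs f
    have hκ : 0 < ∏ t : Fin k, (1 - ε t.succ ^ 2 / 10) := Finset.prod_pos fun t _ => by
      nlinarith [h0 t.succ, h1 t.succ]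
    have := coll_prod_le (hG 0) (WF.pi fun t : Fin k => hG t.succ) (h0 0) hκ (hs 0)
      (ih (fun t => G t.succ) (fun t => ε t.succ) (fun t => hG _) (fun t => h0 _) (fun t => h1 _)
        (fun t => hs _))
      (fun v => ((f (Fin.cons v.1 v.2)) 0, Fin.tail (f (Fin.cons v.1 v.2))))
    rw [Fin.prod_univ_succ]
    refine le_trans (le_of_eq ?_) this
    refine coll_congr (Fin.consEquiv fun _ => U).symm (Fin.consEquiv fun _ => D).symm
      (Fin.consEquiv fun _ => B).symm _ _ (fun u => ?_) (fun u i => ?_) (fun u i => ?_)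
    · simp [pi, prod, Fin.prod_univ_succ, Fin.consEquiv, Fin.tail]
    · simp [pi, prod, Fin.prod_univ_succ, Fin.consEquiv, Fin.tail]
    · have e : (Fin.cons ((G 0).nbr (u 0) (i 0)) fun t : Fin k =>
          (G t.succ).nbr (u t.succ) (i t.succ) : Fin (k + 1) → V) =
          fun t => (G t).nbr (u t) (i t) := by
        funext t
        refine Fin.cases rfl (fun t => rfl) t
      simp only [pi, prod, Fin.consEquiv, Equiv.coe_fn_symm_mk, Fin.tail]
      rw [e]
      rfl

/-- Parallel repetition: collision probability of a product of games. -/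
theorem coll_pi {ι : Type} [Fintype ι] [DecidableEq ι] [Fintype U] [Fintype D] [Fintype V]
    [Fintype A] [Fintype B] [DecidableEq B] [Nonempty A] [Nonempty B] (G : ι → WG U D V A B)
    (ε : ι → ℝ) (hG : ∀ t, (G t).WF) (h0 : ∀ t, 0 ≤ ε t) (h1 : ∀ t, ε t ≤ 1)
    (hs : ∀ t g f, (G t).val g f ≤ 1 - ε t) (f : (ι → V) → ι → A) :
    (pi G).coll f ≤ ∏ t, (1 - ε t ^ 2 / 10) := by
  set e := Fintype.equivFin ι
  have := coll_pi_fin (Fintype.card ι) (fun t => G (e.symm t)) (fun t => ε (e.symm t))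
    (fun t => hG _) (fun t => h0 _) (fun t => h1 _) (fun t => hs _)
    (fun v t => f (fun s => v (e s)) (e.symm t))
  rw [Fintype.prod_equiv e.symm _ (fun t => 1 - ε t ^ 2 / 10) fun _ => rfl] at this
  refine le_trans (le_of_eq ?_) this
  refine coll_congr (Equiv.arrowCongr e (Equiv.refl U)) (Equiv.arrowCongr e (Equiv.refl D))
    (Equiv.arrowCongr e (Equiv.refl B)) _ _ (fun u => ?_) (fun u i => ?_) (fun u i => ?_)
  · exact (Fintype.prod_equiv e.symm _ (fun t => (G t).ν (u t)) fun _ => rfl).symm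
  · exact (Fintype.prod_equiv e.symm _ (fun t => (G t).p (u t) (i t)) fun _ => rfl).symm
  · funext t
    simp [pi, Equiv.arrowCongr]

/-- Parallel repetition: value of a product of games. -/
theorem val_pi {ι : Type} [Fintype ι] [DecidableEq ι] [Fintype U] [Fintype D] [Fintype V]
    [Fintype A] [Fintype B] [DecidableEq B] [Nonempty A] [Nonempty B] (G : ι → WG U D V A B)
    (ε : ι → ℝ) (hG : ∀ t, (G t).WF) (h0 : ∀ t, 0 ≤ ε t) (h1 : ∀ t, ε t ≤ 1)
    (hs : ∀ t g f, (G t).val g f ≤ 1 - ε t) (g : (ι → U) → ι → B) (f : (ι → V) → ι → A) :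
    (pi G).val g f ^ 2 ≤ ∏ t, (1 - ε t ^ 2 / 10) :=
  (val_sq_le_coll (WF.pi hG) g f).trans (coll_pi G ε hG h0 h1 hs f)

end WG

end Vale.Agent.Lib.PCP.Rep
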