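import Vale.Agent.Lib.PCP.Rep.Tensor

/-!
The collision form of a projection game, and the bound on it for a game of value at most `1 - ε`
mixed with the trivial game.
-/

namespace Vale.Agent.Lib.PCP.Rep

open Finset

variable {E U V A B : Type*} [Fintype E] [Fintype U] [Fintype V] [Fintype A] [Fintype B]
  [DecidableEq U] [DecidableEq V] [DecidableEq A] [DecidableEq B]

/-- The total weight of the constraints at a vertex. -/
def wt {Y : Type*} [DecidableEq Y] (w : E → ℝ) (v : E → Y) (y : Y) : ℝ :=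
  ∑ e, if v e = y then w e else 0

/-- The kernel of the collision form. -/
def ker (w : E → ℝ) (u : E → U) (v : E → V) (π : E → A → B) (j : V × B) (x : U × A) : ℝ :=
  ∑ e, if v e = j.1 ∧ u e = x.1 ∧ π e x.2 = j.2 then w e else 0

/-- The kernel of the trivial form. -/
def tker (A : Type*) (y : U) (x : U × A) : ℝ := if y = x.1 then 1 else 0

omit [Fintype U] [Fintype V] [Fintype A] [Fintype B] [DecidableEq A] [DecidableEq B] in
theorem wt_nonneg {Y : Type*} [DecidableEq Y] {w : E → ℝ} (hw : ∀ e, 0 ≤ w e) (v : E → Y)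
    (y : Y) : 0 ≤ wt w v y :=
  sum_nonneg fun e _ => by split_ifs; exacts [hw e, le_rfl]

omit [Fintype U] [Fintype V] [Fintype A] [Fintype B] [DecidableEq A] in
theorem ker_nonneg {w : E → ℝ} (hw : ∀ e, 0 ≤ w e) (u : E → U) (v : E → V) (π : E → A → B)
    (j : V × B) (x : U × A) : 0 ≤ ker w u v π j x :=
  sum_nonneg fun e _ => by split_ifs; exacts [hw e, le_rfl]

omit [Fintype U] [Fintype A] [DecidableEq A] in
theorem tker_nonneg (y : U) (x : U × A) : 0 ≤ tker A y x := by
  unfold tker; split_ifs; exacts [zero_le_one, le_rfl]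

theorem sum_wt_mul {Y : Type*} [Fintype Y] [DecidableEq Y] (w : E → ℝ) (v : E → Y) (F : Y → ℝ) :
    ∑ y, wt w v y * F y = ∑ e, w e * F (v e) := by
  simp only [wt, sum_mul]
  rw [sum_comm]
  refine sum_congr rfl fun e _ => ?_
  simp [ite_mul]

omit [Fintype V] [Fintype B] [DecidableEq A] in
theorem sum_ker_mul (w : E → ℝ) (u : E → U) (v : E → V) (π : E → A → B) (j : V × B)
    (h : U × A → ℝ) : ∑ x, ker w u v π j x * h x =
      ∑ e, if v e = j.1 then w e * ∑ a, if π e a = j.2 then h (u e, a) else 0 else 0 := by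
  simp only [ker, sum_mul]
  rw [sum_comm]
  refine sum_congr rfl fun e _ => ?_
  rw [Fintype.sum_prod_type]
  by_cases hv : v e = j.1
  · simp only [hv, true_and, if_true, ite_mul, zero_mul, mul_sum, mul_ite, mul_zero]
    rw [sum_comm]
    refine sum_congr rfl fun a _ => ?_
    by_cases ha : π e a = j.2 <;> simp [ha]
  · simp [hv]

omit [DecidableEq A] in
theorem sum_tker_mul (y : U) (h : U × A → ℝ) : ∑ x, tker A y x * h x = ∑ a, h (y, a) := by
  rw [Fintype.sum_prod_type]
  simp [tker, ite_mul]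

omit [DecidableEq A] in
theorem form_tker (w : E → ℝ) (u : E → U) (h : U × A → ℝ) :
    form (wt w u) (tker A) h = ∑ e, w e * (∑ a, h (u e, a)) ^ 2 := by
  simp only [form, sum_tker_mul]
  exact sum_wt_mul w u fun y => (∑ a, h (y, a)) ^ 2

omit [Fintype V] [Fintype B] in
/-- Randomised labels on the left are not better than deterministic ones. -/
theorem frac_le [Nonempty A] {w : E → ℝ} (hw : ∀ e, 0 ≤ w e) (u : E → U) (v : E → V)
    (π : E → A → B) {s : ℝ}
    (hval : ∀ (α : U → A) (β : V → B), ∑ e, (if π e (α (u e)) = β (v e) then w e else 0) ≤ s)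
    (p : U → A → ℝ) (hp : ∀ y a, 0 ≤ p y a) (hp1 : ∀ y, ∑ a, p y a = 1) (β : V → B) :
    ∑ e, w e * ∑ a, (if π e a = β (v e) then p (u e) a else 0) ≤ s := by
  set L : U → A → ℝ := fun y a => ∑ e, if u e = y ∧ π e a = β (v e) then w e else 0 with hL
  have hmax : ∀ y, ∃ a, ∀ a', L y a' ≤ L y a := fun y => by
    obtain ⟨a, -, ha⟩ := exists_max_image univ (L y) univ_nonempty
    exact ⟨a, fun a' => ha a' (mem_univ _)⟩
  choose α hα using hmax
  refine le_trans ?_ (hval α β)
  have h1 : ∑ e, w e * ∑ a, (if π e a = β (v e) then p (u e) a else 0) =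
      ∑ y, ∑ a, p y a * L y a := by
    simp only [hL, mul_sum]
    rw [sum_comm' (s' := fun _ => univ) (t' := univ) (by simp)]
    conv_rhs => rw [sum_comm]
    refine sum_congr rfl fun a _ => ?_
    rw [sum_comm]
    refine sum_congr rfl fun e _ => ?_
    by_cases ha : π e a = β (v e) <;> simp [ha, mul_comm]
  have h2 : ∑ e, (if π e (α (u e)) = β (v e) then w e else 0) = ∑ y, L y (α y) := by
    simp only [hL]
    rw [sum_comm]
    refine sum_congr rfl fun e _ => ?_
    rw [sum_eq_single (u e)]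
    · simp
    · intro y _ hy
      simp [Ne.symm hy]
    · simp
  rw [h1, h2]
  refine sum_le_sum fun y _ => ?_
  calc ∑ a, p y a * L y a ≤ ∑ a, p y a * L y (α y) :=
        sum_le_sum fun a _ => mul_le_mul_of_nonneg_left (hα y a) (hp y a)
    _ = L y (α y) := by rw [← sum_mul, hp1, one_mul]

theorem pointwise_ineq {s t x μ : ℝ} (hs : 0 ≤ s) (ht : 0 ≤ t) (hx : 0 ≤ x) (hx1 : x ≤ 1)
    (hμ : 0 ≤ μ) : x * μ ^ 2 / 4 ≤ s * t * x + (s - μ) ^ 2 + (t - μ) ^ 2 := by
  have h0 : 0 ≤ s * t * x := by positivity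
  have h1 : x * μ ^ 2 / 4 ≤ μ ^ 2 / 4 := by nlinarith [sq_nonneg μ]
  by_cases h2 : s ≤ μ / 2
  · nlinarith [sq_nonneg (t - μ)]
  · by_cases h3 : t ≤ μ / 2
    · nlinarith [sq_nonneg (s - μ)]
    · push Not at h2 h3
      have h4 : μ ^ 2 / 4 ≤ s * t := by nlinarith
      nlinarith [sq_nonneg (s - μ), sq_nonneg (t - μ)]

/-- The main estimate: the collision form plus the square of the mean. -/
theorem collision_le [Nonempty A] [Nonempty B] {w : E → ℝ} (hw : ∀ e, 0 ≤ w e)
    (hw1 : ∑ e, w e = 1) (u : E → U) (v : E → V) (π : E → A → B) {ε : ℝ} (hε1 : ε ≤ 1)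
    (hval : ∀ (α : U → A) (β : V → B), ∑ e, (if π e (α (u e)) = β (v e) then w e else 0) ≤ 1 - ε)
    (h : U × A → ℝ) (hh : ∀ x, 0 ≤ h x) :
    form (fun j : V × B => (wt w v j.1)⁻¹) (ker w u v π) h + (∑ e, w e * ∑ a, h (u e, a)) ^ 2 ≤
      2 * (1 - ε / 32) * form (wt w u) (tker A) h := by
  rw [form_tker]
  set t : U → ℝ := fun y => ∑ a, h (y, a) with ht
  have ht0 : ∀ y, 0 ≤ t y := fun y => sum_nonneg fun a _ => hh _
  set n : V → B → ℝ := fun y b =>
    ∑ e, if v e = y then w e * ∑ a, if π e a = b then h (u e, a) else 0 else 0 with hn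
  have hn0 : ∀ y b, 0 ≤ n y b := fun y b => sum_nonneg fun e _ => by
    split_ifs
    · exact mul_nonneg (hw e) (sum_nonneg fun a _ => by split_ifs; exacts [hh _, le_rfl])
    · exact le_rfl
  have hmax : ∀ y, ∃ b, ∀ b', n y b' ≤ n y b := fun y => by
    obtain ⟨b, -, hb⟩ := exists_max_image univ (n y) univ_nonempty
    exact ⟨b, fun b' => hb b' (mem_univ _)⟩
  choose β hβ using hmax
  set N : V → ℝ := fun y => ∑ e, if v e = y then w e * t (u e) else 0 with hN
  have hnN : ∀ y, ∑ b, n y b = N y := by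
    intro y
    simp only [hn, hN]
    rw [sum_comm]
    refine sum_congr rfl fun e _ => ?_
    by_cases hv : v e = y
    · simp only [hv, if_true, ← mul_sum]
      rw [sum_comm]
      simp [ht]
    · simp [hv]
  have hN0 : ∀ y, 0 ≤ N y := fun y => by rw [← hnN]; exact sum_nonneg fun b _ => hn0 y b
  set s : V → ℝ := fun y => (wt w v y)⁻¹ * N y with hs
  have hs0 : ∀ y, 0 ≤ s y := fun y => mul_nonneg (inv_nonneg.2 (wt_nonneg hw v y)) (hN0 y)
  have hWs : ∀ y, wt w v y * s y = N y := by
    intro y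
    by_cases h0 : wt w v y = 0
    · rw [h0, zero_mul]
      have h1 := (sum_eq_zero_iff_of_nonneg fun e _ => by
        split_ifs; exacts [hw e, le_rfl]).1 h0
      symm
      refine sum_eq_zero fun e _ => ?_
      have h2 := h1 e (mem_univ _)
      split_ifs at h2 ⊢ with h3
      · rw [h2, zero_mul]
      · rfl
    · simp only [hs]
      rw [← mul_assoc, mul_inv_cancel₀ h0, one_mul]
  have hfib : ∀ (F : V → ℝ) (G : E → ℝ),
      ∑ y, F y * ∑ e, (if v e = y then G e else 0) = ∑ e, F (v e) * G e := by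
    intro F G
    simp only [mul_sum]
    rw [sum_comm]
    refine sum_congr rfl fun e _ => ?_
    simp [mul_ite]
  have hort : ∀ F : V → ℝ, ∑ e, w e * (F (v e) * s (v e)) = ∑ e, w e * (F (v e) * t (u e)) := by
    intro F
    rw [← sum_wt_mul w v fun y => F y * s y]
    have := hfib F fun e => w e * t (u e)
    calc ∑ y, wt w v y * (F y * s y) = ∑ y, F y * N y :=
          sum_congr rfl fun y _ => by rw [← hWs]; ring
      _ = ∑ e, F (v e) * (w e * t (u e)) := this
      _ = _ := sum_congr rfl fun e _ => by ring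
  obtain ⟨a₀⟩ := ‹Nonempty A›
  set p : U → A → ℝ := fun y a => if t y = 0 then (if a = a₀ then 1 else 0) else h (y, a) / t y
    with hp
  have hp0 : ∀ y a, 0 ≤ p y a := fun y a => by
    simp only [hp]
    split_ifs
    exacts [zero_le_one, le_rfl, div_nonneg (hh _) (ht0 _)]
  have hp1 : ∀ y, ∑ a, p y a = 1 := fun y => by
    simp only [hp]
    by_cases h0 : t y = 0
    · simp [h0]
    · simp only [h0, if_false]
      rw [← sum_div]
      exact div_self h0
  have hhp : ∀ y a, h (y, a) = t y * p y a := fun y a => by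
    simp only [hp]
    by_cases h0 : t y = 0
    · rw [h0, zero_mul]
      exact (sum_eq_zero_iff_of_nonneg fun a _ => hh _).1 h0 a (mem_univ _)
    · rw [if_neg h0, mul_div_cancel₀ _ h0]
  set q : E → ℝ := fun e => ∑ a, if π e a = β (v e) then p (u e) a else 0 with hq
  have hq0 : ∀ e, 0 ≤ q e := fun e => sum_nonneg fun a _ => by
    split_ifs; exacts [hp0 _ _, le_rfl]
  have hq1 : ∀ e, q e ≤ 1 := fun e => by
    rw [← hp1 (u e)]
    exact sum_le_sum fun a _ => by split_ifs; exacts [le_rfl, hp0 _ _]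
  have hqv : ∑ e, w e * q e ≤ 1 - ε := frac_le hw u v π hval p hp0 hp1 β
  have hQ : form (fun j : V × B => (wt w v j.1)⁻¹) (ker w u v π) h ≤
      ∑ e, w e * (s (v e) * t (u e) * q e) := by
    have h1 : form (fun j : V × B => (wt w v j.1)⁻¹) (ker w u v π) h =
        ∑ y, ∑ b, (wt w v y)⁻¹ * n y b ^ 2 := by
      simp only [form, sum_ker_mul]
      rw [Fintype.sum_prod_type]
    have h2 : ∑ e, w e * (s (v e) * t (u e) * q e) = ∑ y, s y * n y (β y) := by
      have := hfib s fun e => w e * ∑ a, if π e a = β (v e) then h (u e, a) else 0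
      calc ∑ e, w e * (s (v e) * t (u e) * q e)
          = ∑ e, s (v e) * (w e * ∑ a, if π e a = β (v e) then h (u e, a) else 0) := by
            refine sum_congr rfl fun e _ => ?_
            have : ∑ a, (if π e a = β (v e) then h (u e, a) else 0) = t (u e) * q e := by
              simp only [hq, mul_sum]
              refine sum_congr rfl fun a _ => ?_
              split_ifs
              exacts [hhp _ _, (mul_zero _).symm]
            rw [this]
            ring
        _ = _ := by
            rw [← this]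
            refine sum_congr rfl fun y _ => ?_
            congr 1
            refine sum_congr rfl fun e _ => ?_
            split_ifs with h3
            · rw [h3]
            · rfl
    rw [h1, h2]
    refine sum_le_sum fun y _ => ?_
    have hi : 0 ≤ (wt w v y)⁻¹ := inv_nonneg.2 (wt_nonneg hw v y)
    calc ∑ b, (wt w v y)⁻¹ * n y b ^ 2 ≤ ∑ b, (wt w v y)⁻¹ * (n y b * n y (β y)) :=
          sum_le_sum fun b _ => mul_le_mul_of_nonneg_left
            (by rw [sq]; exact mul_le_mul_of_nonneg_left (hβ y b) (hn0 y b)) hi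
      _ = s y * n y (β y) := by
          rw [← mul_sum, ← sum_mul, hnN]
          simp only [hs]
          ring
  set μ : ℝ := ∑ e, w e * t (u e) with hμ
  have hμ0 : 0 ≤ μ := sum_nonneg fun e _ => mul_nonneg (hw e) (ht0 _)
  have hμs : ∑ e, w e * s (v e) = μ := by simpa using hort fun _ => 1
  have hS := hort s
  set S : ℝ := ∑ e, w e * (s (v e) * s (v e)) with hSd
  set T : ℝ := ∑ e, w e * t (u e) ^ 2 with hT
  set Y : ℝ := ∑ e, w e * (s (v e) * t (u e) * (1 - q e)) with hY
  have hY0 : 0 ≤ Y := sum_nonneg fun e _ =>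
    mul_nonneg (hw e) (mul_nonneg (mul_nonneg (hs0 _) (ht0 _)) (by linarith [hq1 e]))
  have hSY : ∑ e, w e * (s (v e) * t (u e) * q e) = S - Y := by
    rw [hS, hY, ← sum_sub_distrib]
    exact sum_congr rfl fun e _ => by ring
  have hST : S ≤ T := by
    have h1 : 0 ≤ ∑ e, w e * (s (v e) - t (u e)) ^ 2 :=
      sum_nonneg fun e _ => mul_nonneg (hw e) (sq_nonneg _)
    have h2 : ∑ e, w e * (s (v e) - t (u e)) ^ 2 =
        S + T - 2 * ∑ e, w e * (s (v e) * t (u e)) := by
      rw [hSd, hT, mul_sum, ← sum_add_distrib, ← sum_sub_distrib]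
      exact sum_congr rfl fun e _ => by ring
    linarith
  have hvar : ∀ (z : E → ℝ) (m : ℝ), ∑ e, w e * (z e - m) ^ 2 =
      ∑ e, w e * z e ^ 2 - 2 * m * ∑ e, w e * z e + m ^ 2 * ∑ e, w e := by
    intro z m
    rw [mul_sum, mul_sum, ← sum_sub_distrib, ← sum_add_distrib]
    exact sum_congr rfl fun e _ => by ring
  have hvs : ∑ e, w e * (s (v e) - μ) ^ 2 = S - μ ^ 2 := by
    rw [hvar (fun e => s (v e)) μ, hμs, hw1, hSd]
    simp only [sq]
    ring
  have hvt : ∑ e, w e * (t (u e) - μ) ^ 2 = T - μ ^ 2 := by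
    rw [hvar (fun e => t (u e)) μ, ← hμ, hw1, ← hT]
    ring
  have hTμ : μ ^ 2 ≤ T := by
    have : 0 ≤ ∑ e, w e * (t (u e) - μ) ^ 2 :=
      sum_nonneg fun e _ => mul_nonneg (hw e) (sq_nonneg _)
    linarith
  have hpt : ε * μ ^ 2 / 4 ≤ Y + (S - μ ^ 2) + (T - μ ^ 2) := by
    rw [← hvs, ← hvt, hY, ← sum_add_distrib, ← sum_add_distrib]
    have h1 : ε ≤ ∑ e, w e * (1 - q e) := by
      have : ∑ e, w e * (1 - q e) = ∑ e, w e - ∑ e, w e * q e := by
        rw [← sum_sub_distrib]
        exact sum_congr rfl fun e _ => by ring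
      linarith
    calc ε * μ ^ 2 / 4 ≤ (∑ e, w e * (1 - q e)) * μ ^ 2 / 4 := by
          have := mul_le_mul_of_nonneg_right h1 (sq_nonneg μ)
          linarith
      _ = ∑ e, w e * ((1 - q e) * μ ^ 2 / 4) := by
          rw [sum_mul, sum_div]
          exact sum_congr rfl fun e _ => by ring
      _ ≤ _ := by
          refine sum_le_sum fun e _ => ?_
          rw [← mul_add, ← mul_add]
          exact mul_le_mul_of_nonneg_left (pointwise_ineq (hs0 _) (ht0 _)
            (by linarith [hq1 e]) (by linarith [hq0 e]) hμ0) (hw e)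
  have h5 : ε * (T - μ ^ 2) ≤ T - μ ^ 2 := by nlinarith
  nlinarith

end Vale.Agent.Lib.PCP.Rep
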