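import Vale.Agent.Lib.PCP.Rep.Sampling

/-!
Parallel repetition for arbitrary weighted projection games (after Dinur and Steurer): the
collision value of `G × H` is at most `(1 - ε ^ 2 / 10)` times the collision value of `H`, when the
value of `G` is at most `1 - ε`.
-/

namespace Vale.Agent.Lib.PCP.Rep

open Finset
open scoped BigOperators

/-- Weighted projection games: the vertex `u` (labels in `B`) has weight `ν u`; given `u`, the edge
`i` has weight `p u i`, it leads to the vertex `nbr u i` (labels in `A`) and has the projection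
`proj u i`. -/
structure WG (U D V A B : Type) where
  /-- weights of the vertices with the small alphabet -/
  ν : U → ℝ
  /-- conditional weights of the edges -/
  p : U → D → ℝ
  /-- the neighbours -/
  nbr : U → D → V
  /-- the projections -/
  proj : U → D → A → B

namespace WG

variable {U D V A B U' D' V' A' B' : Type}

/-- The weights are sub-probability vectors. -/
structure WF [Fintype U] [Fintype D] (G : WG U D V A B) : Prop where
  ν0 : ∀ u, 0 ≤ G.ν u
  ν1 : ∑ u, G.ν u ≤ 1
  p0 : ∀ u i, 0 ≤ G.p u i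
  p1 : ∀ u, ∑ i, G.p u i ≤ 1

/-- The weight of the edges satisfied by the labelings `g`, `f`. -/
noncomputable def val [Fintype U] [Fintype D] [DecidableEq B] (G : WG U D V A B) (g : U → B)
    (f : V → A) : ℝ :=
  ∑ u, G.ν u * ∑ i, G.p u i * if G.proj u i (f (G.nbr u i)) = g u then 1 else 0

/-- The collision probability of the labeling `f`. -/
noncomputable def coll [Fintype U] [Fintype D] [Fintype B] [DecidableEq B] (G : WG U D V A B)
    (f : V → A) : ℝ :=
  ∑ u, G.ν u * ∑ b, (∑ i, G.p u i * if G.proj u i (f (G.nbr u i)) = b then 1 else 0) ^ 2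

/-- The product of two games. -/
def prod (G : WG U D V A B) (H : WG U' D' V' A' B') :
    WG (U × U') (D × D') (V × V') (A × A') (B × B') where
  ν u := G.ν u.1 * H.ν u.2
  p u i := G.p u.1 i.1 * H.p u.2 i.2
  nbr u i := (G.nbr u.1 i.1, H.nbr u.2 i.2)
  proj u i a := (G.proj u.1 i.1 a.1, H.proj u.2 i.2 a.2)

/-- The square of the value is at most the collision probability. -/
theorem val_sq_le_coll [Fintype U] [Fintype D] [Fintype B] [DecidableEq B] {G : WG U D V A B}
    (hG : G.WF) (g : U → B) (f : V → A) : G.val g f ^ 2 ≤ G.coll f := by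
  set y : U → ℝ := fun u => ∑ i, G.p u i * if G.proj u i (f (G.nbr u i)) = g u then 1 else 0
    with hy
  have h1 : (∑ u, G.ν u * y u) ^ 2 ≤ (∑ u, G.ν u) * ∑ u, G.ν u * y u ^ 2 := by
    have := Finset.sum_mul_sq_le_sq_mul_sq univ (fun u => √(G.ν u)) (fun u => √(G.ν u) * y u)
    simp only [mul_pow, Real.sq_sqrt (hG.ν0 _), ← mul_assoc, Real.mul_self_sqrt (hG.ν0 _)] at this
    exact this
  have h2 : ∑ u, G.ν u * y u ^ 2 ≤ G.coll f := by
    refine Finset.sum_le_sum fun u _ => mul_le_mul_of_nonneg_left ?_ (hG.ν0 u)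
    exact Finset.single_le_sum (f := fun b => (∑ i, G.p u i *
      if G.proj u i (f (G.nbr u i)) = b then (1 : ℝ) else 0) ^ 2) (fun b _ => sq_nonneg _)
      (Finset.mem_univ (g u))
  have h3 : 0 ≤ ∑ u, G.ν u * y u ^ 2 :=
    Finset.sum_nonneg fun u _ => mul_nonneg (hG.ν0 u) (sq_nonneg _)
  calc G.val g f ^ 2 = (∑ u, G.ν u * y u) ^ 2 := rfl
    _ ≤ (∑ u, G.ν u) * ∑ u, G.ν u * y u ^ 2 := h1
    _ ≤ 1 * ∑ u, G.ν u * y u ^ 2 := mul_le_mul_of_nonneg_right hG.ν1 h3
    _ ≤ G.coll f := by rw [one_mul]; exact h2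

/-- The collision form of two fractional labels. -/
noncomputable def col [Fintype A] [DecidableEq B] (π π' : A → B) (q q' : A → ℝ) : ℝ :=
  ∑ a, ∑ a', if π a = π' a' then q a * q' a' else 0

theorem col_nonneg [Fintype A] [DecidableEq B] (π π' : A → B) {q q' : A → ℝ} (hq : ∀ a, 0 ≤ q a)
    (hq' : ∀ a, 0 ≤ q' a) : 0 ≤ col π π' q q' := by
  refine Finset.sum_nonneg fun a _ => Finset.sum_nonneg fun a' _ => ?_
  split_ifs
  · exact mul_nonneg (hq _) (hq' _)
  · exact le_rfl

theorem col_le [Fintype A] [DecidableEq B] (π π' : A → B) {q q' : A → ℝ} (hq : ∀ a, 0 ≤ q a)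
    (hq' : ∀ a, 0 ≤ q' a) : col π π' q q' ≤ (∑ a, q a) * ∑ a, q' a := by
  rw [Finset.sum_mul_sum]
  refine Finset.sum_le_sum fun a _ => Finset.sum_le_sum fun a' _ => ?_
  split_ifs
  · exact le_rfl
  · exact mul_nonneg (hq _) (hq' _)

theorem col_mul [Fintype A] [DecidableEq B] (π π' : A → B) (q q' : A → ℝ) (s s' : ℝ) :
    col π π' (fun a => s * q a) (fun a => s' * q' a) = s * s' * col π π' q q' := by
  simp only [col, Finset.mul_sum]
  refine Finset.sum_congr rfl fun a _ => Finset.sum_congr rfl fun a' _ => ?_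
  split_ifs <;> ring

/-- Expansion of the squared norm into collision forms. -/
theorem sum_sq_eq_col [Fintype D] [Fintype A] [Fintype B] [DecidableEq B] (p : D → ℝ)
    (π : D → A → B) (q : D → A → ℝ) :
    ∑ b, (∑ i, p i * ∑ a, if π i a = b then q i a else 0) ^ 2 =
      ∑ i, ∑ j, p i * p j * col (π i) (π j) (q i) (q j) := by
  simp only [sq, Finset.sum_mul_sum]
  rw [Finset.sum_comm]
  refine Finset.sum_congr rfl fun i _ => ?_
  rw [Finset.sum_comm]
  refine Finset.sum_congr rfl fun j _ => ?_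
  have e : ∀ b, (p i * ∑ a, if π i a = b then q i a else 0) *
      (p j * ∑ a, if π j a = b then q j a else 0) =
      p i * p j * ∑ a, ∑ a', if π i a = b then (if π i a = π j a' then q i a * q j a' else 0)
        else 0 := by
    intro b
    rw [mul_mul_mul_comm, Finset.sum_mul_sum]
    congr 1
    refine Finset.sum_congr rfl fun a _ => Finset.sum_congr rfl fun a' _ => ?_
    by_cases h1 : π i a = b
    · subst h1
      by_cases h2 : π j a' = π i a
      · simp [h2]
      · simp [h2, Ne.symm h2]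
    · simp [h1]
  simp only [e]
  rw [← Finset.mul_sum, col]
  congr 1
  rw [Finset.sum_comm]
  refine Finset.sum_congr rfl fun a _ => ?_
  rw [Finset.sum_comm]
  refine Finset.sum_congr rfl fun a' _ => ?_
  simp

/-- The collision probability of a fractional labeling is at most the value. -/
theorem frac_le_val [Fintype U] [Fintype D] [Fintype V] [Fintype A] [Fintype B] [DecidableEq B]
    [Nonempty A] [Nonempty B] {G : WG U D V A B} (hG : G.WF) {s : ℝ}
    (hs : ∀ g f, G.val g f ≤ s) (q : V → A → ℝ) (q0 : ∀ v a, 0 ≤ q v a)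
    (q1 : ∀ v, ∑ a, q v a ≤ 1) :
    ∑ u, G.ν u * ∑ i, ∑ j, G.p u i * G.p u j *
      col (G.proj u i) (G.proj u j) (q (G.nbr u i)) (q (G.nbr u j)) ≤ s := by
  classical
  set y : U → B → ℝ := fun u b => ∑ i, G.p u i * ∑ a, if G.proj u i a = b then q (G.nbr u i) a
    else 0 with hy
  have y0 : ∀ u b, 0 ≤ y u b := fun u b => Finset.sum_nonneg fun i _ =>
    mul_nonneg (hG.p0 u i) (Finset.sum_nonneg fun a _ => by
      split_ifs
      · exact q0 _ _
      · exact le_rfl)
  have y1 : ∀ u, ∑ b, y u b ≤ 1 := fun u => by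
    simp only [hy]
    rw [Finset.sum_comm]
    refine le_trans (Finset.sum_le_sum fun i _ => ?_) (hG.p1 u)
    rw [← Finset.mul_sum, Finset.sum_comm]
    simp only [Finset.sum_ite_eq, Finset.mem_univ, if_true]
    exact mul_le_of_le_one_right (hG.p0 u i) (q1 _)
  have hg := fun u => Finite.exists_max (y u)
  choose g hg using hg
  set Wt : V → A → ℝ := fun v a => ∑ u, G.ν u * ∑ i, G.p u i *
    if G.nbr u i = v ∧ G.proj u i a = g u then 1 else 0 with hW
  have W0 : ∀ v a, 0 ≤ Wt v a := fun v a => Finset.sum_nonneg fun u _ =>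
    mul_nonneg (hG.ν0 u) (Finset.sum_nonneg fun i _ => mul_nonneg (hG.p0 u i) (by
      split_ifs <;> norm_num))
  have hf := fun v => Finite.exists_max (Wt v)
  choose f hf using hf
  have h1 : ∑ u, G.ν u * y u (g u) = ∑ v, ∑ a, q v a * Wt v a := by
    simp only [hy, hW, Finset.mul_sum]
    symm
    calc ∑ v, ∑ a, ∑ u, ∑ i, q v a * (G.ν u * (G.p u i *
            if G.nbr u i = v ∧ G.proj u i a = g u then (1 : ℝ) else 0))
        = ∑ a, ∑ v, ∑ u, ∑ i, q v a * (G.ν u * (G.p u i *
            if G.nbr u i = v ∧ G.proj u i a = g u then (1 : ℝ) else 0)) := Finset.sum_comm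
      _ = ∑ a, ∑ u, ∑ i, ∑ v, q v a * (G.ν u * (G.p u i *
            if G.nbr u i = v ∧ G.proj u i a = g u then (1 : ℝ) else 0)) := by
          refine Finset.sum_congr rfl fun a _ => ?_
          rw [Finset.sum_comm]
          exact Finset.sum_congr rfl fun u _ => Finset.sum_comm
      _ = ∑ u, ∑ i, ∑ a, ∑ v, q v a * (G.ν u * (G.p u i *
            if G.nbr u i = v ∧ G.proj u i a = g u then (1 : ℝ) else 0)) := by
          rw [Finset.sum_comm]
          exact Finset.sum_congr rfl fun u _ => Finset.sum_comm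
      _ = _ := by
          refine Finset.sum_congr rfl fun u _ => Finset.sum_congr rfl fun i _ =>
            Finset.sum_congr rfl fun a _ => ?_
          rw [Finset.sum_eq_single (G.nbr u i)]
          · by_cases h : G.proj u i a = g u <;> simp [h]
            ring
          · intro v _ hv
            simp [Ne.symm hv]
          · simp
  have h2 : ∑ v, Wt v (f v) = G.val g f := by
    simp only [hW, val, Finset.mul_sum]
    rw [Finset.sum_comm]
    refine Finset.sum_congr rfl fun u _ => ?_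
    rw [Finset.sum_comm]
    refine Finset.sum_congr rfl fun i _ => ?_
    rw [Finset.sum_eq_single (G.nbr u i)]
    · simp
    · intro v _ hv
      simp [Ne.symm hv]
    · simp
  calc _ = ∑ u, G.ν u * ∑ b, y u b ^ 2 := by
        refine Finset.sum_congr rfl fun u _ => ?_
        rw [← sum_sq_eq_col]
    _ ≤ ∑ u, G.ν u * y u (g u) := by
        refine Finset.sum_le_sum fun u _ => mul_le_mul_of_nonneg_left ?_ (hG.ν0 u)
        calc ∑ b, y u b ^ 2 ≤ ∑ b, y u (g u) * y u b := Finset.sum_le_sum fun b _ => by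
              rw [sq]; exact mul_le_mul_of_nonneg_right (hg u b) (y0 u b)
          _ = y u (g u) * ∑ b, y u b := by rw [Finset.mul_sum]
          _ ≤ y u (g u) := mul_le_of_le_one_right (y0 _ _) (y1 u)
    _ = ∑ v, ∑ a, q v a * Wt v a := h1
    _ ≤ ∑ v, Wt v (f v) := by
        refine Finset.sum_le_sum fun v _ => ?_
        calc ∑ a, q v a * Wt v a ≤ ∑ a, q v a * Wt v (f v) := Finset.sum_le_sum fun a _ =>
              mul_le_mul_of_nonneg_left (hf v a) (q0 v a)
          _ = (∑ a, q v a) * Wt v (f v) := by rw [Finset.sum_mul]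
          _ ≤ Wt v (f v) := mul_le_of_le_one_left (W0 _ _) (q1 v)
    _ = G.val g f := h2
    _ ≤ s := hs g f

/-- The success probability of correlated sampling for two almost parallel vectors. -/
theorem ratio_bound {W : Type} [Fintype W] (ν x y c : W → ℝ) (hν : ∀ w, 0 ≤ ν w)
    (hx : ∀ w, 0 ≤ x w) (hy : ∀ w, 0 ≤ y w) (c0 : ∀ w, 0 ≤ c w) (c1 : ∀ w, c w ≤ 1) {κ t : ℝ}
    (hκ : 0 < κ) (ht : 0 < t) (h1 : ∑ w, ν w * x w ^ 2 ≤ κ) (h2 : ∑ w, ν w * y w ^ 2 ≤ κ) :
    1 - (1 - (∑ w, ν w * (x w * y w * c w)) / κ) * (1 + 1 / t) - 2 * t ≤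
      (∑ w, ν w * min (x w ^ 2) (y w ^ 2) * c w) / ∑ w, ν w * max (x w ^ 2) (y w ^ 2) := by
  set X := ∑ w, ν w * (x w * y w * c w) with hX
  set Δ := ∑ w, ν w * |x w ^ 2 - y w ^ 2| with hΔ
  set N := ∑ w, ν w * min (x w ^ 2) (y w ^ 2) * c w with hN
  set Dn := ∑ w, ν w * max (x w ^ 2) (y w ^ 2) with hD
  set Sx := ∑ w, ν w * x w ^ 2 with hSx
  set Sy := ∑ w, ν w * y w ^ 2 with hSy
  have hN0 : 0 ≤ N := Finset.sum_nonneg fun w _ =>
    mul_nonneg (mul_nonneg (hν w) (le_min (sq_nonneg _) (sq_nonneg _))) (c0 w)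
  have hD0 : 0 ≤ Dn := Finset.sum_nonneg fun w _ =>
    mul_nonneg (hν w) (le_max_of_le_left (sq_nonneg _))
  have hΔ0 : 0 ≤ Δ := Finset.sum_nonneg fun w _ => mul_nonneg (hν w) (abs_nonneg _)
  have hxy : ∀ w, x w * y w * c w ≤ x w * y w := fun w =>
    mul_le_of_le_one_right (mul_nonneg (hx w) (hy w)) (c1 w)
  have hXD : X ≤ Dn := Finset.sum_le_sum fun w _ => mul_le_mul_of_nonneg_left (by
    refine (hxy w).trans ?_
    rcases le_total (x w) (y w) with h | h
    · exact le_max_of_le_right (by nlinarith [hx w, hy w])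
    · exact le_max_of_le_left (by nlinarith [hx w, hy w])) (hν w)
  have hΔ1 : t * Δ ≤ (Sx + Sy - 2 * X) / 2 + t ^ 2 * (Sx + Sy) := by
    simp only [hΔ, hSx, hSy, hX, Finset.mul_sum, ← Finset.sum_add_distrib,
      ← Finset.sum_sub_distrib, Finset.sum_div]
    refine Finset.sum_le_sum fun w _ => ?_
    have e1 : t * |x w ^ 2 - y w ^ 2| ≤ (x w ^ 2 + y w ^ 2 - 2 * (x w * y w * c w)) / 2 +
        t ^ 2 * (x w ^ 2 + y w ^ 2) := by
      have := hxy w
      rcases abs_cases (x w ^ 2 - y w ^ 2) with h | h <;> rw [h.1]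
      · nlinarith [sq_nonneg (x w - y w - t * (x w + y w)), sq_nonneg (t * (x w - y w))]
      · nlinarith [sq_nonneg (y w - x w - t * (x w + y w)), sq_nonneg (t * (x w - y w))]
    nlinarith [mul_le_mul_of_nonneg_left e1 (hν w)]
  have hNX : X - Δ / 2 ≤ N := by
    simp only [hΔ, hX, hN, Finset.sum_div, ← Finset.sum_sub_distrib]
    refine Finset.sum_le_sum fun w _ => ?_
    have e1 : x w * y w - |x w ^ 2 - y w ^ 2| / 2 ≤ min (x w ^ 2) (y w ^ 2) := by
      rcases le_total (x w) (y w) with h | h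
      · have h3 : x w ^ 2 ≤ y w ^ 2 := by nlinarith [hx w, hy w]
        rw [min_eq_left h3, abs_of_nonpos (by linarith)]
        nlinarith [sq_nonneg (x w - y w)]
      · have h3 : y w ^ 2 ≤ x w ^ 2 := by nlinarith [hx w, hy w]
        rw [min_eq_right h3, abs_of_nonneg (by linarith)]
        nlinarith [sq_nonneg (x w - y w)]
    have e2 : x w * y w * c w - |x w ^ 2 - y w ^ 2| / 2 ≤ min (x w ^ 2) (y w ^ 2) * c w := by
      nlinarith [mul_le_mul_of_nonneg_right e1 (c0 w), abs_nonneg (x w ^ 2 - y w ^ 2), c1 w]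
    nlinarith [mul_le_mul_of_nonneg_left e2 (hν w)]
  have hDΔ : Dn = (Sx + Sy + Δ) / 2 := by
    simp only [hΔ, hD, hSx, hSy, Finset.sum_div, ← Finset.sum_add_distrib]
    refine Finset.sum_congr rfl fun w _ => ?_
    rcases le_total (x w ^ 2) (y w ^ 2) with h | h
    · rw [max_eq_right h, abs_of_nonpos (by linarith)]; ring
    · rw [max_eq_left h, abs_of_nonneg (by linarith)]; ring
  have hΔ2 : Δ / κ ≤ (1 - X / κ) * (1 / t) + 2 * t := by
    have e : (1 - X / κ) * (1 / t) + 2 * t = (κ - X + 2 * t ^ 2 * κ) / (t * κ) := by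
      field_simp
    rw [e, div_le_div_iff₀ hκ (mul_pos ht hκ)]
    have : t * Δ ≤ κ - X + 2 * t ^ 2 * κ := by nlinarith [sq_nonneg t]
    nlinarith
  have hmain : X / κ - Δ / κ ≤ N / Dn := by
    rcases le_or_gt (X - Δ) 0 with h | h
    · rw [← sub_div]
      exact (div_nonpos_of_nonpos_of_nonneg h hκ.le).trans (div_nonneg hN0 hD0)
    · have hDpos : 0 < Dn := by linarith
      rw [← sub_div, div_le_div_iff₀ hκ hDpos]
      have e1 : Dn ≤ κ + Δ / 2 := by rw [hDΔ]; linarith
      have e2 : X - Δ ≤ κ := by linarith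
      nlinarith [mul_le_mul_of_nonneg_left e1 h.le, mul_le_mul_of_nonneg_right e2 hΔ0,
        mul_le_mul_of_nonneg_right hNX hκ.le]
  nlinarith

end WG

end Vale.Agent.Lib.PCP.Rep
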