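import Vale.Agent.Lib.PCP.Rep.Expand

/-!
Parallel repetition for a projection game mixed half and half with the trivial game.
-/

namespace Vale.Agent.Lib.PCP.Rep

open Finset

section Fin

variable {E U V A B : Type*} [Fintype E] [Fintype U] [Fintype V] [Fintype A] [Fintype B]
  [DecidableEq E] [DecidableEq U] [DecidableEq V] [DecidableEq A] [DecidableEq B]

theorem sum_prod_pi {Y : Type*} [Fintype Y] [DecidableEq Y] {k : ℕ} (F : Fin k → Y → ℝ) :
    ∑ y : Fin k → Y, ∏ i, F i (y i) = ∏ i, ∑ y, F i y := by
  rw [prod_univ_sum, Fintype.piFinset_univ]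

omit [Fintype U] [Fintype V] [Fintype A] [Fintype B] [DecidableEq U] [DecidableEq V]
  [DecidableEq A] [DecidableEq B] [DecidableEq E] in
theorem sum_wt {Y : Type*} [Fintype Y] [DecidableEq Y] (w : E → ℝ) (v : E → Y) :
    ∑ y, wt w v y = ∑ e, w e := by
  simpa using sum_wt_mul w v fun _ => 1

/-- The value of the repeated game is bounded by the tensor power of the collision form. -/
theorem rep_sq_le {w : E → ℝ} (hw : ∀ e, 0 ≤ w e) (hw1 : ∑ e, w e = 1) (u : E → U) (v : E → V)
    (π : E → A → B) {lam : ℝ} (hl : 0 ≤ lam)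
    (hd : Dom lam (fun j : V × B => (wt w v j.1)⁻¹) (ker w u v π) (wt w u) (tker A)) (k : ℕ)
    (α : (Fin k → U) → Fin k → A) (β : (Fin k → V) → Fin k → B) :
    (∑ e : Fin k → E, if ∀ i, π (e i) (α (fun t => u (e t)) i) = β (fun t => v (e t)) i then
      ∏ i, w (e i) else 0) ^ 2 ≤ lam ^ k := by
  set f : (Fin k → U × A) → ℝ := fun x =>
    if α (fun t => (x t).1) = fun t => (x t).2 then 1 else 0 with hf
  have key := hd.pow hl (fun j => inv_nonneg.2 (wt_nonneg hw v _)) (ker_nonneg hw u v π)
    (wt_nonneg hw u) (fun i x => tker_nonneg i x) k f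
    (fun x => by simp only [hf]; split_ifs; exacts [zero_le_one, le_rfl])
  have hT : form (fun i : Fin k → U => ∏ t, wt w u (i t))
      (fun i (x : Fin k → U × A) => ∏ t, tker A (i t) (x t)) f = 1 := by
    have h1 : ∀ y : Fin k → U, ∑ x : Fin k → U × A, (∏ t, tker A (y t) (x t)) * f x = 1 := by
      intro y
      rw [sum_eq_single (fun t => (y t, α y t))]
      · simp [hf, tker]
      · intro x _ hx
        by_cases h2 : y = fun t => (x t).1
        · have h3 : ¬ α (fun t => (x t).1) = fun t => (x t).2 := by
            intro h3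
            apply hx
            funext t
            rw [h2, h3]
          simp [hf, h3]
        · obtain ⟨t, ht⟩ := Function.ne_iff.1 h2
          rw [prod_eq_zero (mem_univ t) (by simp [tker, ht]), zero_mul]
      · simp
    simp only [form, h1, one_pow, mul_one]
    rw [sum_prod_pi fun _ y => wt w u y]
    simp [sum_wt, hw1]
  rw [hT, mul_one] at key
  refine le_trans ?_ key
  set n : (Fin k → V) → ℝ := fun y => ∑ e : Fin k → E,
    if (fun t => v (e t)) = y ∧ ∀ i, π (e i) (α (fun t => u (e t)) i) = β y i then
      ∏ i, w (e i) else 0 with hn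
  set W : (Fin k → V) → ℝ := fun y => ∏ t, wt w v (y t) with hW
  have hW0 : ∀ y, 0 ≤ W y := fun y => prod_nonneg fun t _ => wt_nonneg hw v _
  have hp0 : ∀ e : Fin k → E, 0 ≤ ∏ i, w (e i) := fun e => prod_nonneg fun t _ => hw _
  have hn0 : ∀ y, 0 ≤ n y := fun y => sum_nonneg fun e _ => by
    split_ifs; exacts [hp0 e, le_rfl]
  have hnW : ∀ y, n y ≤ W y := by
    intro y
    simp only [hn, hW, wt]
    rw [← sum_prod_pi fun t e => if v e = y t then w e else 0]
    refine sum_le_sum fun e _ => ?_
    split_ifs with h1
    · refine le_of_eq (prod_congr rfl fun t _ => ?_)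
      rw [if_pos (congrFun h1.1 t)]
    · exact prod_nonneg fun t _ => by split_ifs; exacts [hw _, le_rfl]
  have hsum : (∑ e : Fin k → E, if ∀ i, π (e i) (α (fun t => u (e t)) i) =
      β (fun t => v (e t)) i then ∏ i, w (e i) else 0) = ∑ y, n y := by
    simp only [hn]
    rw [sum_comm]
    refine sum_congr rfl fun e _ => ?_
    rw [sum_eq_single (fun t => v (e t))]
    · simp
    · intro y _ hy
      simp [Ne.symm hy]
    · simp
  have hker : ∀ y : Fin k → V, ∑ x : Fin k → U × A,
      (∏ t, ker w u v π (y t, β y t) (x t)) * f x = n y := by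
    intro y
    simp only [hn, ker]
    have h1 : ∀ x : Fin k → U × A, (∏ t, ∑ e, if v e = y t ∧ u e = (x t).1 ∧
        π e (x t).2 = β y t then w e else 0) = ∑ e : Fin k → E, ∏ t,
          if v (e t) = y t ∧ u (e t) = (x t).1 ∧ π (e t) (x t).2 = β y t then w (e t) else 0 :=
      fun x => (sum_prod_pi fun t e => if v e = y t ∧ u e = (x t).1 ∧
        π e (x t).2 = β y t then w e else 0).symm
    simp only [h1, sum_mul]
    rw [sum_comm]
    refine sum_congr rfl fun e _ => ?_
    rw [sum_eq_single (fun t => (u (e t), α (fun t => u (e t)) t))]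
    · simp only [hf, if_true, mul_one, true_and]
      split_ifs with h2
      · exact prod_congr rfl fun t _ => if_pos ⟨congrFun h2.1 t, h2.2 t⟩
      · by_contra h3
        apply h2
        have h4 : ∀ t, v (e t) = y t ∧ π (e t) (α (fun t => u (e t)) t) = β y t := by
          intro t
          by_contra h5
          exact h3 (prod_eq_zero (mem_univ t) (if_neg h5))
        exact ⟨funext fun t => (h4 t).1, fun t => (h4 t).2⟩
    · intro x _ hx
      by_cases h2 : (fun t => u (e t)) = fun t => (x t).1
      · have h3 : ¬ α (fun t => (x t).1) = fun t => (x t).2 := by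
          intro h3
          apply hx
          funext t
          rw [h2, h3, congrFun h2 t]
        simp [hf, h3]
      · obtain ⟨t, ht⟩ := Function.ne_iff.1 h2
        rw [prod_eq_zero (mem_univ t) (by simp [ht]), zero_mul]
    · simp
  have hW1 : ∑ y, W y = 1 := by
    simp only [hW]
    rw [sum_prod_pi fun _ y => wt w v y]
    simp [sum_wt, hw1]
  rw [hsum]
  calc (∑ y, n y) ^ 2 ≤ (∑ y, W y) * ∑ y, (W y)⁻¹ * n y ^ 2 := by
        refine sum_sq_le_sum_mul_sum_of_sq_le_mul _ (fun y _ => hW0 y)
          (fun y _ => mul_nonneg (inv_nonneg.2 (hW0 y)) (sq_nonneg _)) fun y _ => le_of_eq ?_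
        by_cases h0 : W y = 0
        · have : n y = 0 := le_antisymm (h0 ▸ hnW y) (hn0 y)
          simp [this]
        · rw [← mul_assoc, mul_inv_cancel₀ h0, one_mul]
    _ = ∑ y, (W y)⁻¹ * n y ^ 2 := by rw [hW1, one_mul]
    _ ≤ _ := by
        set g : (Fin k → V × B) → ℝ := fun j => (∏ t, (wt w v (j t).1)⁻¹) *
          (∑ x : Fin k → U × A, (∏ t, ker w u v π (j t) (x t)) * f x) ^ 2 with hg
        set m : (Fin k → V) → (Fin k → V × B) := fun y t => (y t, β y t) with hm
        have hmi : Function.Injective m := fun y y' h =>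
          funext fun t => congrArg Prod.fst (congrFun h t)
        have h1 : ∑ y, (W y)⁻¹ * n y ^ 2 = ∑ j ∈ univ.image m, g j := by
          rw [sum_image fun y _ y' _ h => hmi h]
          refine sum_congr rfl fun y _ => ?_
          simp only [hg, hm, hW, hker, prod_inv_distrib]
        rw [h1]
        refine sum_le_sum_of_subset_of_nonneg (subset_univ _) fun j _ _ => ?_
        exact mul_nonneg (prod_nonneg fun t _ => inv_nonneg.2 (wt_nonneg hw v _)) (sq_nonneg _)

omit [DecidableEq E] in
/-- The game mixed with the trivial game. -/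
theorem dom_mix [Nonempty A] (b₀ : B) {w : E → ℝ} (hw : ∀ e, 0 ≤ w e)
    (hw1 : ∑ e, w e = 1) (u : E → U) (v : E → V) (π : E → A → B) {ε : ℝ} (hε1 : ε ≤ 1)
    (hval : ∀ (α : U → A) (β : V → B),
      ∑ e, (if π e (α (u e)) = β (v e) then w e else 0) ≤ 1 - ε) :
    Dom (1 - ε / 32)
      (fun j : Option V × B => (wt (fun e : E × Bool => w e.1 / 2)
        (fun e => bif e.2 then none else some (v e.1)) j.1)⁻¹)
      (ker (fun e : E × Bool => w e.1 / 2) (fun e => u e.1)
        (fun e => bif e.2 then none else some (v e.1))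
        (fun e a => bif e.2 then b₀ else π e.1 a))
      (wt (fun e : E × Bool => w e.1 / 2) (fun e => u e.1)) (tker A) := by
  intro h hh
  have : Nonempty B := ⟨b₀⟩
  have key := collision_le hw hw1 u v π hε1 hval h hh
  have h1 : wt (fun e : E × Bool => w e.1 / 2) (fun e => u e.1) = wt w u := by
    funext y
    simp only [wt]
    rw [Fintype.sum_prod_type]
    refine sum_congr rfl fun e _ => ?_
    by_cases h2 : u e = y
    · simp [h2]
      ring
    · simp [h2]
  have h2 : ∀ y, wt (fun e : E × Bool => w e.1 / 2)
      (fun e => bif e.2 then none else some (v e.1)) (some y) = wt w v y / 2 := by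
    intro y
    simp only [wt]
    rw [Fintype.sum_prod_type, sum_div]
    refine sum_congr rfl fun e _ => ?_
    by_cases h2 : v e = y <;> simp [h2]
  have h3 : wt (fun e : E × Bool => w e.1 / 2)
      (fun e => bif e.2 then none else some (v e.1)) none = 1 / 2 := by
    simp only [wt]
    rw [Fintype.sum_prod_type, ← hw1, sum_div]
    refine sum_congr rfl fun e _ => ?_
    simp
  have h4 : ∀ y b, ∑ x, ker (fun e : E × Bool => w e.1 / 2) (fun e => u e.1)
      (fun e => bif e.2 then none else some (v e.1))
      (fun e a => bif e.2 then b₀ else π e.1 a) (some y, b) x * h x =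
      (∑ x, ker w u v π (y, b) x * h x) / 2 := by
    intro y b
    rw [sum_ker_mul, sum_ker_mul, Fintype.sum_prod_type, sum_div]
    refine sum_congr rfl fun e _ => ?_
    by_cases h2 : v e = y
    · simp [h2]
      ring
    · simp [h2]
  have h5 : ∀ b, ∑ x, ker (fun e : E × Bool => w e.1 / 2) (fun e => u e.1)
      (fun e => bif e.2 then none else some (v e.1))
      (fun e a => bif e.2 then b₀ else π e.1 a) (none, b) x * h x =
      if b₀ = b then (∑ e, w e * ∑ a, h (u e, a)) / 2 else 0 := by
    intro b
    rw [sum_ker_mul, Fintype.sum_prod_type]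
    by_cases h2 : b₀ = b
    · rw [if_pos h2, sum_div]
      refine sum_congr rfl fun e _ => ?_
      simp [h2]
      ring
    · simp [h2]
  have h6 : form (fun j : Option V × B => (wt (fun e : E × Bool => w e.1 / 2)
        (fun e => bif e.2 then none else some (v e.1)) j.1)⁻¹)
      (ker (fun e : E × Bool => w e.1 / 2) (fun e => u e.1)
        (fun e => bif e.2 then none else some (v e.1))
        (fun e a => bif e.2 then b₀ else π e.1 a)) h =
      (form (fun j : V × B => (wt w v j.1)⁻¹) (ker w u v π) h +
        (∑ e, w e * ∑ a, h (u e, a)) ^ 2) / 2 := by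
    simp only [form]
    rw [Fintype.sum_prod_type, Fintype.sum_option, Fintype.sum_prod_type, add_div, add_comm]
    congr 1
    · rw [sum_div]
      refine sum_congr rfl fun y _ => ?_
      rw [sum_div]
      refine sum_congr rfl fun b _ => ?_
      rw [h2, h4]
      simp only [inv_div]
      ring
    · simp only [h3, h5]
      rw [sum_eq_single b₀]
      · simp
        ring
      · intro b _ hb
        simp [Ne.symm hb]
      · simp
  rw [h6, h1]
  linarith

end Fin

/-- Parallel repetition. The game has constraints `e : E` of weight `w e`, between the vertex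
`u e` (labels in `A`) and the vertex `v e` (labels in `B`), with projection `π e`. In the mixed game
each constraint is replaced, with probability one half, by the constraint between `u e` and a new
vertex `none` whose projection is constant. If the value of the game is at most `1 - ε` then the
square of the value of the `k`-fold repetition of the mixed game is at most `(1 - ε / 32) ^ k`. -/
theorem rep_mix_sq_le {E U V A B : Type*} [Fintype E] [Fintype A] [Fintype B] [DecidableEq E]
    [DecidableEq B] [Nonempty A] (b₀ : B) {w : E → ℝ} (hw : ∀ e, 0 ≤ w e) (hw1 : ∑ e, w e = 1)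
    (u : E → U) (v : E → V) (π : E → A → B) {ε : ℝ} (hε1 : ε ≤ 1)
    (hval : ∀ (α : U → A) (β : V → B),
      ∑ e, (if π e (α (u e)) = β (v e) then w e else 0) ≤ 1 - ε) (k : ℕ)
    (α : (Fin k → U) → Fin k → A) (β : (Fin k → Option V) → Fin k → B) :
    (∑ e : Fin k → E × Bool,
      if ∀ i, (bif (e i).2 then b₀ else π (e i).1 (α (fun t => u (e t).1) i)) =
        β (fun t => bif (e t).2 then none else some (v (e t).1)) i then
      ∏ i, w (e i).1 / 2 else 0) ^ 2 ≤ (1 - ε / 32) ^ k := by
  classical
  obtain ⟨a₀⟩ := ‹Nonempty A›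
  have : Nonempty A := ⟨a₀⟩
  let u' : E → Set.range u := fun e => ⟨u e, e, rfl⟩
  let v' : E → Set.range v := fun e => ⟨v e, e, rfl⟩
  have hval' : ∀ (α : Set.range u → A) (β : Set.range v → B),
      ∑ e, (if π e (α (u' e)) = β (v' e) then w e else 0) ≤ 1 - ε := by
    intro α β
    have := hval (fun y => if h : y ∈ Set.range u then α ⟨y, h⟩ else a₀)
      (fun y => if h : y ∈ Set.range v then β ⟨y, h⟩ else b₀)
    simpa [u', v'] using this
  have hd := dom_mix b₀ hw hw1 u' v' π hε1 hval'
  have key := rep_sq_le (w := fun e : E × Bool => w e.1 / 2) (fun e => by have := hw e.1; positivity)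
    (by rw [Fintype.sum_prod_type, ← hw1]; exact sum_congr rfl fun e _ => by simp; ring)
    _ _ _ (by linarith) hd k (fun y => α fun t => (y t).1)
    (fun y => β fun t => (y t).map Subtype.val)
  refine le_trans (le_of_eq ?_) key
  congr 1
  refine sum_congr rfl fun e _ => ?_
  have h1 : (fun t => Option.map Subtype.val (bif (e t).2 then none else some (v' (e t).1))) =
      fun t => bif (e t).2 then none else some (v (e t).1) := by
    funext t
    cases (e t).2 <;> rfl
  simp only [h1]
  rfl

end Vale.Agent.Lib.PCP.Rep
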