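import Vale.Agent.Lib.MathlibUsed

/-!
Correlated sampling, in a purely finite form.
-/

namespace Vale.Agent.Lib.PCP.Rep

open Finset
open scoped BigOperators

/-- Some point is at least as good as the weighted average. -/
theorem exists_ge_wavg {W : Type} (T : Finset W) (wt g : W → ℝ) (hwt : ∀ w, 0 ≤ wt w) (L : ℝ)
    (hZ : 0 < ∑ w ∈ T, wt w) (h : L * ∑ w ∈ T, wt w ≤ ∑ w ∈ T, wt w * g w) :
    ∃ w ∈ T, L ≤ g w := by
  by_contra hc
  push Not at hc
  have h1 : ∃ w ∈ T, 0 < wt w := by
    by_contra h2
    push Not at h2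
    have : ∑ w ∈ T, wt w ≤ 0 := Finset.sum_nonpos h2
    linarith
  obtain ⟨w0, hw0, hpos⟩ := h1
  have h3 : ∑ w ∈ T, wt w * g w < ∑ w ∈ T, wt w * L := by
    refine Finset.sum_lt_sum (fun w hw => ?_) ⟨w0, hw0, ?_⟩
    · exact mul_le_mul_of_nonneg_left (hc w hw).le (hwt w)
    · exact mul_lt_mul_of_pos_left (hc w0 hw0) hpos
  rw [← Finset.sum_mul] at h3
  linarith

/-- The total gain of the pairs `(a i, b i)` whose two members choose the same point. -/
noncomputable def gain {V W I : Type} [Fintype I] [DecidableEq W] (a b : I → V)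
    (c : I → W → ℝ) (φ : V → Option W) : ℝ :=
  ∑ i, (φ (a i)).elim 0 fun w => if φ (b i) = some w then c i w else 0

theorem gain_nonneg {V W I : Type} [Fintype I] [DecidableEq W] (a b : I → V)
    {c : I → W → ℝ} (hc : ∀ i w, 0 ≤ c i w) (φ : V → Option W) : 0 ≤ gain a b c φ := by
  refine Finset.sum_nonneg fun i _ => ?_
  cases φ (a i) with
  | none => exact le_rfl
  | some w =>
    simp only [Option.elim]
    split_ifs
    · exact hc i w
    · exact le_rfl

/-- Correlated sampling from sets. -/
theorem corr_sets {V W I : Type} [Fintype I] [DecidableEq W] (wt : W → ℝ) (hwt : ∀ w, 0 ≤ wt w)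
    (S : V → W → Prop) [∀ v w, Decidable (S v w)] (a b : I → V) (T : Finset W) :
    ∀ (c : I → W → ℝ), (∀ i w, 0 ≤ c i w) → ∃ φ : V → Option W,
      ∑ i, (∑ w ∈ T, if S (a i) w ∧ S (b i) w then wt w * c i w else 0) /
        (∑ w ∈ T, if S (a i) w ∨ S (b i) w then wt w else 0) ≤ gain a b c φ := by
  induction T using Finset.strongInduction with
  | H T ih =>
  intro c hc
  set N : I → ℝ := fun i => ∑ w ∈ T, if S (a i) w ∧ S (b i) w then wt w * c i w else 0 with hN
  set Dn : I → ℝ := fun i => ∑ w ∈ T, if S (a i) w ∨ S (b i) w then wt w else 0 with hD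
  have hN0 : ∀ i, 0 ≤ N i := fun i => Finset.sum_nonneg fun w _ => by
    split_ifs
    · exact mul_nonneg (hwt w) (hc i w)
    · exact le_rfl
  have hD0 : ∀ i, 0 ≤ Dn i := fun i => Finset.sum_nonneg fun w _ => by
    split_ifs
    · exact hwt w
    · exact le_rfl
  have hDZ : ∀ i, Dn i ≤ ∑ w ∈ T, wt w := fun i => Finset.sum_le_sum fun w _ => by
    split_ifs
    · exact le_rfl
    · exact hwt w
  rcases (Finset.sum_nonneg fun w (_ : w ∈ T) => hwt w).eq_or_lt with hZ | hZ
  · refine ⟨fun _ => none, ?_⟩
    refine le_trans (le_of_eq (Finset.sum_eq_zero fun i _ => ?_)) (gain_nonneg a b hc _)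
    have : Dn i = 0 := le_antisymm (by rw [hZ]; exact hDZ i) (hD0 i)
    show N i / Dn i = 0
    rw [this, div_zero]
  have key : ∀ w0 ∈ T, ∃ φ : V → Option W,
      ∑ i, ((if S (a i) w0 ∧ S (b i) w0 then c i w0 else 0) +
        if S (a i) w0 ∨ S (b i) w0 then 0 else N i / Dn i) ≤ gain a b c φ := by
    intro w0 hw0
    obtain ⟨φ, hφ⟩ := ih (T.erase w0) (Finset.erase_ssubset hw0)
      (fun i w => if S (a i) w0 ∨ S (b i) w0 then 0 else c i w) (fun i w => by
        split_ifs
        · exact le_rfl
        · exact hc i w)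
    refine ⟨fun v => if S v w0 then some w0 else φ v, ?_⟩
    have e1 : ∑ i, (if S (a i) w0 ∨ S (b i) w0 then 0 else N i / Dn i) =
        ∑ i, (∑ w ∈ T.erase w0, if S (a i) w ∧ S (b i) w then
          wt w * (if S (a i) w0 ∨ S (b i) w0 then 0 else c i w) else 0) /
        (∑ w ∈ T.erase w0, if S (a i) w ∨ S (b i) w then wt w else 0) := by
      refine Finset.sum_congr rfl fun i _ => ?_
      by_cases h : S (a i) w0 ∨ S (b i) w0
      · simp [h]
      · have h' : ¬ (S (a i) w0 ∧ S (b i) w0) := fun h' => h (Or.inl h'.1)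
        simp only [h, if_false]
        rw [Finset.sum_erase, Finset.sum_erase]
        · simp [h]
        · simp [h']
    rw [Finset.sum_add_distrib, e1]
    refine le_trans (add_le_add_right hφ _) ?_
    rw [gain, gain, ← Finset.sum_add_distrib]
    refine Finset.sum_le_sum fun i _ => ?_
    by_cases h1 : S (a i) w0 <;> by_cases h2 : S (b i) w0
    · simp only [h1, h2, and_self, if_true, or_self, Option.elim]
      cases φ (a i) <;> simp
    · simp only [h1, h2, and_false, if_false, if_true, true_or, Option.elim, zero_add]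
      have h3 : (0 : ℝ) ≤ if φ (b i) = some w0 then c i w0 else 0 := by
        split_ifs
        · exact hc _ _
        · exact le_rfl
      cases φ (a i) <;> simpa using h3
    · simp only [h1, h2, false_and, if_false, if_true, or_true, Option.elim, zero_add]
      cases φ (a i) with
      | none => simp
      | some w =>
        simp only [ite_self]
        split_ifs
        · exact hc _ _
        · exact le_rfl
    · simp [h1, h2]
  choose! φ hφ using key
  obtain ⟨w0, hw0, h⟩ := exists_ge_wavg T wt (fun w0 => gain a b c (φ w0)) hwt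
    (∑ i, N i / Dn i) hZ (by
      refine le_trans ?_ (Finset.sum_le_sum fun w hw => mul_le_mul_of_nonneg_left (hφ w hw) (hwt w))
      have e2 : ∀ i, ∑ w ∈ T, wt w * ((if S (a i) w ∧ S (b i) w then c i w else 0) +
          if S (a i) w ∨ S (b i) w then 0 else N i / Dn i) =
          N i + ((∑ w ∈ T, wt w) - Dn i) * (N i / Dn i) := by
        intro i
        simp only [hN, hD]
        rw [← Finset.sum_sub_distrib, Finset.sum_mul, ← Finset.sum_add_distrib]
        refine Finset.sum_congr rfl fun w _ => ?_
        split_ifs <;> ring1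
      have e4 : ∑ w ∈ T, wt w * ∑ i, ((if S (a i) w ∧ S (b i) w then c i w else 0) +
          if S (a i) w ∨ S (b i) w then 0 else N i / Dn i) =
          ∑ i, (N i + ((∑ w ∈ T, wt w) - Dn i) * (N i / Dn i)) := by
        simp only [← e2, Finset.mul_sum]
        exact Finset.sum_comm
      rw [e4, Finset.sum_mul]
      refine Finset.sum_le_sum fun i _ => ?_
      have e3 : Dn i * (N i / Dn i) ≤ N i := by
        rcases (hD0 i).eq_or_lt with h | h
        · rw [← h, zero_mul]; exact hN0 i
        · rw [mul_div_cancel₀ _ h.ne']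
      nlinarith)
  exact ⟨φ w0, h⟩

/-- Layer cake decomposition of a nonnegative function. -/
theorem layer_cake {V : Type} [Fintype V] [DecidableEq V] (n : ℕ) :
    ∀ x : V → ℝ, (∀ v, 0 ≤ x v) → (univ.filter fun v => x v ≠ 0).card ≤ n →
      ∃ lam : Finset V → ℝ, (∀ A, 0 ≤ lam A) ∧
        ∀ v v', ∑ A, (if v ∈ A ∧ v' ∈ A then lam A else 0) = min (x v) (x v') := by
  induction n with
  | zero =>
    intro x _ h
    have h0 : ∀ v, x v = 0 := fun v => by
      by_contra hv
      have : v ∈ univ.filter fun v => x v ≠ 0 := by simpa using hv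
      rw [Finset.card_eq_zero.1 (Nat.le_zero.1 h)] at this
      simp at this
    exact ⟨fun _ => 0, fun _ => le_rfl, fun v v' => by simp [h0]⟩
  | succ n ih =>
    intro x hx h
    set S := univ.filter fun v => x v ≠ 0 with hS
    rcases S.eq_empty_or_nonempty with he | hne
    · exact ih x hx (by rw [← hS, he]; simp)
    obtain ⟨v0, hv0, hmin⟩ := Finset.exists_min_image S x hne
    have hmem : ∀ v, v ∈ S ↔ x v ≠ 0 := fun v => by simp [hS]
    obtain ⟨lam, h0, h1⟩ := ih (fun v => if v ∈ S then x v - x v0 else 0) (fun v => by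
        split_ifs with hv
        · exact sub_nonneg.2 (hmin v hv)
        · exact le_rfl) (by
        have : (univ.filter fun v => (if v ∈ S then x v - x v0 else 0) ≠ 0) ⊆ S.erase v0 := by
          intro v hv
          simp only [Finset.mem_filter, Finset.mem_univ, true_and] at hv
          by_cases hvS : v ∈ S
          · refine Finset.mem_erase.2 ⟨?_, hvS⟩
            rintro rfl
            simp at hv
          · simp [hvS] at hv
        have h2 := Finset.card_le_card this
        rw [Finset.card_erase_of_mem hv0] at h2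
        omega)
    refine ⟨fun A => lam A + if A = S then x v0 else 0, fun A => ?_, fun v v' => ?_⟩
    · refine add_nonneg (h0 A) ?_
      split_ifs
      · exact hx v0
      · exact le_rfl
    · have e : ∀ A : Finset V, (if v ∈ A ∧ v' ∈ A then lam A + if A = S then x v0 else 0 else 0) =
          (if v ∈ A ∧ v' ∈ A then lam A else 0) +
            if A = S then (if v ∈ S ∧ v' ∈ S then x v0 else 0) else 0 := by
        intro A
        by_cases hA : A = S
        · subst hA
          split_ifs <;> simp_all
        · split_ifs <;> simp_all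
      simp only [e, Finset.sum_add_distrib, h1, Finset.sum_ite_eq', Finset.mem_univ, if_true]
      by_cases hv : v ∈ S <;> by_cases hv' : v' ∈ S
      · simp only [hv, hv', if_true, and_self]
        rw [min_sub_sub_right]; ring
      · have : x v' = 0 := by simpa [hmem] using hv'
        simp only [hv, hv', if_true, if_false, and_false, add_zero, this]
        rw [min_eq_right (sub_nonneg.2 (hmin v hv)), min_eq_right (hx v)]
      · have : x v = 0 := by simpa [hmem] using hv
        simp only [hv, hv', if_true, if_false, false_and, add_zero, this]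
        rw [min_eq_left (sub_nonneg.2 (hmin v' hv')), min_eq_left (hx v')]
      · have h3 : x v = 0 := by simpa [hmem] using hv
        have h4 : x v' = 0 := by simpa [hmem] using hv'
        simp [hv, hv', h3, h4]

/-- Correlated sampling from nonnegative densities. -/
theorem corr_fun {V W I : Type} [Fintype V] [Fintype W] [Fintype I] [DecidableEq W]
    (ν : W → ℝ) (hν : ∀ w, 0 ≤ ν w) (x : V → W → ℝ) (hx : ∀ v w, 0 ≤ x v w) (a b : I → V)
    (c : I → W → ℝ) (hc : ∀ i w, 0 ≤ c i w) : ∃ φ : V → Option W,
      ∑ i, (∑ w, ν w * min (x (a i) w) (x (b i) w) * c i w) /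
        (∑ w, ν w * max (x (a i) w) (x (b i) w)) ≤ gain a b c φ := by
  classical
  have h := fun w => layer_cake _ (fun v => x v w) (fun v => hx v w) le_rfl
  choose lam h0 h1 using h
  obtain ⟨φ, hφ⟩ := corr_sets (W := W × Finset V) (fun p => ν p.1 * lam p.1 p.2)
    (fun p => mul_nonneg (hν _) (h0 _ _)) (fun v p => v ∈ p.2) a b univ (fun i p => c i p.1)
    (fun i p => hc i _)
  refine ⟨fun v => (φ v).map Prod.fst, le_trans (le_of_eq ?_) (hφ.trans ?_)⟩
  · refine Finset.sum_congr rfl fun i _ => ?_
    congr 1
    · rw [Fintype.sum_prod_type]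
      refine Finset.sum_congr rfl fun w _ => ?_
      rw [← h1, Finset.mul_sum, Finset.sum_mul]
      refine Finset.sum_congr rfl fun A _ => ?_
      split_ifs <;> simp
    · rw [Fintype.sum_prod_type]
      refine Finset.sum_congr rfl fun w _ => ?_
      have e : max (x (a i) w) (x (b i) w) = min (x (a i) w) (x (a i) w) +
          min (x (b i) w) (x (b i) w) - min (x (a i) w) (x (b i) w) := by
        rw [min_self, min_self, ← min_add_max (x (a i) w) (x (b i) w)]; ring
      rw [e, ← h1, ← h1, ← h1, ← Finset.sum_add_distrib, ← Finset.sum_sub_distrib, Finset.mul_sum]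
      refine Finset.sum_congr rfl fun A _ => ?_
      by_cases ha : a i ∈ A <;> by_cases hb : b i ∈ A <;> simp [ha, hb]
  · refine Finset.sum_le_sum fun i _ => ?_
    show (φ (a i)).elim 0 (fun p => if φ (b i) = some p then c i p.1 else 0) ≤
      ((φ (a i)).map Prod.fst).elim 0
        (fun w => if (φ (b i)).map Prod.fst = some w then c i w else 0)
    cases φ (a i) with
    | none => simp
    | some p =>
      simp only [Option.elim, Option.map_some]
      split_ifs with h2 h3
      · exact le_rfl
      · exact absurd (by rw [h2]; rfl) h3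
      · exact hc _ _
      · exact le_rfl

end Vale.Agent.Lib.PCP.Rep
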