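import Mathlib.Algebra.BigOperators.Fin
import Mathlib.Algebra.BigOperators.Ring.Finset
import Mathlib.Algebra.Order.BigOperators.Ring.Finset
import Mathlib.Algebra.Order.Chebyshev
import Mathlib.Data.Real.Basic
import Mathlib.Tactic

/-!
Sums of squares of nonnegative linear forms, restricted to nonnegative functions: a comparison
between two such quadratic forms passes to tensor powers (Dinur and Steurer).
-/

namespace Vale.Agent.Lib.PCP.Rep

open Finset

/-- The quadratic form `∑ j, c j * ⟨φ j, h⟩ ^ 2`. -/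
def form {J X : Type*} [Fintype J] [Fintype X] (c : J → ℝ) (φ : J → X → ℝ) (h : X → ℝ) : ℝ :=
  ∑ j, c j * (∑ x, φ j x * h x) ^ 2

/-- The first form is at most `lam` times the second one on nonnegative functions. -/
def Dom {I J X : Type*} [Fintype I] [Fintype J] [Fintype X] (lam : ℝ) (c : J → ℝ) (φ : J → X → ℝ)
    (d : I → ℝ) (ψ : I → X → ℝ) : Prop :=
  ∀ h : X → ℝ, (∀ x, 0 ≤ h x) → form c φ h ≤ lam * form d ψ h

section Two

variable {I J X I' J' X' : Type*} [Fintype I] [Fintype J] [Fintype X] [Fintype I'] [Fintype J']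
  [Fintype X']

theorem form_prod_left (c : J → ℝ) (φ : J → X → ℝ) (c' : J' → ℝ) (φ' : J' → X' → ℝ)
    (f : X × X' → ℝ) :
    form (fun j : J × J' => c j.1 * c' j.2) (fun j (x : X × X') => φ j.1 x.1 * φ' j.2 x.2) f =
      ∑ j', c' j' * form c φ (fun x => ∑ x', φ' j' x' * f (x, x')) := by
  simp only [form]
  rw [Fintype.sum_prod_type_right]
  refine sum_congr rfl fun j' _ => ?_
  rw [mul_sum]
  refine sum_congr rfl fun j _ => ?_
  rw [Fintype.sum_prod_type]
  have : ∀ x, ∑ x', φ j x * φ' j' x' * f (x, x') = φ j x * ∑ x', φ' j' x' * f (x, x') := by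
    intro x
    rw [mul_sum]
    exact sum_congr rfl fun x' _ => by ring
  simp only [this]
  ring

theorem form_prod_right (c : J → ℝ) (φ : J → X → ℝ) (c' : J' → ℝ) (φ' : J' → X' → ℝ)
    (f : X × X' → ℝ) :
    form (fun j : J × J' => c j.1 * c' j.2) (fun j (x : X × X') => φ j.1 x.1 * φ' j.2 x.2) f =
      ∑ j, c j * form c' φ' (fun x' => ∑ x, φ j x * f (x, x')) := by
  simp only [form]
  rw [Fintype.sum_prod_type]
  refine sum_congr rfl fun j _ => ?_
  rw [mul_sum]
  refine sum_congr rfl fun j' _ => ?_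
  rw [Fintype.sum_prod_type_right]
  have : ∀ x', ∑ x, φ j x * φ' j' x' * f (x, x') = φ' j' x' * ∑ x, φ j x * f (x, x') := by
    intro x'
    rw [mul_sum]
    exact sum_congr rfl fun x _ => by ring
  simp only [this]
  ring

theorem Dom.prod {lam lam' : ℝ} {c : J → ℝ} {φ : J → X → ℝ} {d : I → ℝ} {ψ : I → X → ℝ}
    {c' : J' → ℝ} {φ' : J' → X' → ℝ} {d' : I' → ℝ} {ψ' : I' → X' → ℝ}
    (h : Dom lam c φ d ψ) (h' : Dom lam' c' φ' d' ψ') (hl : 0 ≤ lam)
    (hc' : ∀ j, 0 ≤ c' j) (hφ' : ∀ j x, 0 ≤ φ' j x) (hd : ∀ i, 0 ≤ d i) (hψ : ∀ i x, 0 ≤ ψ i x) :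
    Dom (lam * lam') (fun j : J × J' => c j.1 * c' j.2)
      (fun j (x : X × X') => φ j.1 x.1 * φ' j.2 x.2)
      (fun i : I × I' => d i.1 * d' i.2) (fun i (x : X × X') => ψ i.1 x.1 * ψ' i.2 x.2) := by
  intro f hf
  calc form (fun j : J × J' => c j.1 * c' j.2) (fun j (x : X × X') => φ j.1 x.1 * φ' j.2 x.2) f
      = ∑ j', c' j' * form c φ (fun x => ∑ x', φ' j' x' * f (x, x')) := form_prod_left _ _ _ _ _
    _ ≤ ∑ j', c' j' * (lam * form d ψ (fun x => ∑ x', φ' j' x' * f (x, x'))) := by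
      refine sum_le_sum fun j' _ => mul_le_mul_of_nonneg_left (h _ fun x => ?_) (hc' j')
      exact sum_nonneg fun x' _ => mul_nonneg (hφ' _ _) (hf _)
    _ = lam * form (fun j : I × J' => d j.1 * c' j.2)
        (fun j (x : X × X') => ψ j.1 x.1 * φ' j.2 x.2) f := by
      rw [form_prod_left, mul_sum]
      exact sum_congr rfl fun j' _ => by ring
    _ = lam * ∑ i, d i * form c' φ' (fun x' => ∑ x, ψ i x * f (x, x')) := by
      rw [form_prod_right]
    _ ≤ lam * ∑ i, d i * (lam' * form d' ψ' (fun x' => ∑ x, ψ i x * f (x, x'))) := by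
      refine mul_le_mul_of_nonneg_left (sum_le_sum fun i _ =>
        mul_le_mul_of_nonneg_left (h' _ fun x => ?_) (hd i)) hl
      exact sum_nonneg fun x' _ => mul_nonneg (hψ _ _) (hf _)
    _ = lam * lam' * form (fun i : I × I' => d i.1 * d' i.2)
        (fun i (x : X × X') => ψ i.1 x.1 * ψ' i.2 x.2) f := by
      rw [form_prod_right, mul_assoc, mul_sum _ _ lam']
      congr 1
      exact sum_congr rfl fun i _ => by ring

theorem form_equiv (eJ : J' ≃ J) (eX : X' ≃ X) (c : J → ℝ) (φ : J → X → ℝ) (h : X → ℝ) :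
    form c φ h = form (fun j => c (eJ j)) (fun j x => φ (eJ j) (eX x)) (fun x => h (eX x)) := by
  simp only [form]
  rw [← eJ.sum_comp]
  refine sum_congr rfl fun j _ => ?_
  rw [← eX.sum_comp]

end Two

/-- The comparison passes to tensor powers. -/
theorem Dom.pow {I J X : Type*} [Fintype I] [Fintype J] [Fintype X] [DecidableEq I]
    [DecidableEq J] [DecidableEq X] {lam : ℝ} {c : J → ℝ}
    {φ : J → X → ℝ} {d : I → ℝ} {ψ : I → X → ℝ} (h : Dom lam c φ d ψ) (hl : 0 ≤ lam)
    (hc : ∀ j, 0 ≤ c j) (hφ : ∀ j x, 0 ≤ φ j x) (hd : ∀ i, 0 ≤ d i) (hψ : ∀ i x, 0 ≤ ψ i x)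
    (k : ℕ) :
    Dom (lam ^ k) (fun j : Fin k → J => ∏ t, c (j t))
      (fun j (x : Fin k → X) => ∏ t, φ (j t) (x t))
      (fun i : Fin k → I => ∏ t, d (i t)) (fun i (x : Fin k → X) => ∏ t, ψ (i t) (x t)) := by
  induction k with
  | zero =>
    intro f _
    simp [form]
  | succ k ih =>
    intro f hf
    have key := Dom.prod h ih hl (fun j => prod_nonneg fun t _ => hc _)
      (fun j x => prod_nonneg fun t _ => hφ _ _) hd hψ
      (fun x => f (Fin.consEquiv (fun _ : Fin (k + 1) => X) x)) (fun x => hf _)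
    rw [form_equiv (Fin.consEquiv (fun _ : Fin (k + 1) => J))
      (Fin.consEquiv (fun _ : Fin (k + 1) => X)),
      form_equiv (Fin.consEquiv (fun _ : Fin (k + 1) => I))
      (Fin.consEquiv (fun _ : Fin (k + 1) => X)) (fun i : Fin (k + 1) → I => ∏ t, d (i t)),
      pow_succ']
    simpa [Fin.prod_univ_succ, Fin.consEquiv] using key

end Vale.Agent.Lib.PCP.Rep
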